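import Vale.Agent.P159.TM.H265.Par
import Vale.Agent.P159.TM.H708.Pd
import Vale.Agent.P159.T1.H934.Markov

/-!
Entrywise monotonicity of the covariance under hard pins: `E[h_u h_z]` does not increase when
heights are pinned to zero, and is nonnegative.
-/

open MeasureTheory Filter Topology Finset

namespace Vale.Agent.P159.TM.H265

open Vale.Agent.P159 Vale.Agent.P159.H353 Vale.Agent.P159.R2.H254 Vale.Agent.P159.T1.H934
  Vale.Agent.P159.T1.H897 Vale.Agent.P159.TM.H22 Vale.Agent.P159.TM.H708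

variable {V : Type} [Fintype V] {E : Type} [Fintype E]

/-- the forms `D` whose path kernels satisfy the lattice condition on parity classes -/
def Lat (D : (V → ℤ) →+ (E → ℤ)) : Prop := ∀ e k, CHol fun h => T1.H934.phi 0 k (D h e)

omit [Fintype V] [Fintype E] in
lemma lat_grd (s t : E → V) : Lat (grd s t) := fun e k => chol_edge k (s e) (t e)

lemma cc_zero_of (J : ℝ) (i : ℕ × ℕ) (h : i.2 ≠ 0) : cc J 0 i = 0 := by
  unfold cc
  rw [zero_div, zero_pow h, zero_div, mul_zero]

section core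

variable (D : (V → ℤ) →+ (E → ℤ)) {J : E → ℝ}

omit [Fintype V] in
open Classical in
theorem entry_core (hD : Lat D) (hJ : ∀ e, 0 ≤ J e) {g : (V → ℤ) → ℝ} (g0 : ∀ s, 0 ≤ g s)
    (ge : ∀ s, g (-s) = g s) (gc : CHol g) (hs : Summable g) {u z : V}
    (hu : Summable fun s => |g s * (s u : ℝ)|) (hz : Summable fun s => |g s * (s z : ℝ)|)
    (p : V) :
    0 ≤ ∑' x : (V → ℤ) × (V → ℤ), W D J x.1 * W D J x.2 *
      ((g (x.1 + x.2) * ((x.1 + x.2) u : ℝ)) * (g (x.1 - x.2) * ((x.1 - x.2) z : ℝ)) *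
        (if x.2 p = 0 then 1 else 0)) := by
  have hK : ∀ e : E, 0 ≤ (0 : E → ℝ) e := fun _ => le_rfl
  have hb := bt_summable hJ hK
  have hp : Summable fun x : (V → ℤ) × (V → ℤ) =>
      |g (x.1 + x.2) * ((x.1 + x.2) u : ℝ)| * |g (x.1 - x.2) * ((x.1 - x.2) z : ℝ)| := by
    have h1 : Summable fun x : (V → ℤ) × (V → ℤ) => |g x.1 * (x.1 u : ℝ)| * |g x.2 * (x.2 z : ℝ)| :=
      hu.mul_of_nonneg hz (fun _ => abs_nonneg _) (fun _ => abs_nonneg _)
    have h3 := h1.comp_injective (rot_inj (H := V → ℤ) two_inj)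
    refine h3.congr fun x => ?_
    simp only [Function.comp, rot]
  set A : (V → ℤ) × (V → ℤ) → ℝ := fun x =>
    (g (x.1 + x.2) * ((x.1 + x.2) u : ℝ)) * (g (x.1 - x.2) * ((x.1 - x.2) z : ℝ)) *
        (if x.2 p = 0 then 1 else 0) with hA
  have hAle : ∀ x, |A x| ≤
      |g (x.1 + x.2) * ((x.1 + x.2) u : ℝ)| * |g (x.1 - x.2) * ((x.1 - x.2) z : ℝ)| := by
    intro x
    simp only [hA]
    rw [abs_mul, abs_mul]
    refine mul_le_of_le_one_right (by positivity) ?_
    split_ifs <;> simp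
  set F : (E → ℕ × ℕ) × ((V → ℤ) × (V → ℤ)) → ℝ := fun y => tm D J 0 y.1 y.2 * A y.2 with hF
  have hFs : Summable F := by
    have h1 : Summable fun y : (E → ℕ × ℕ) × ((V → ℤ) × (V → ℤ)) =>
        bt J 0 y.1 * (|g (y.2.1 + y.2.2) * ((y.2.1 + y.2.2) u : ℝ)| *
          |g (y.2.1 - y.2.2) * ((y.2.1 - y.2.2) z : ℝ)|) :=
      hb.mul_of_nonneg hp (fun i => bt_nonneg hJ hK i) (fun _ => by positivity)
    refine Summable.of_norm_bounded h1 fun y => ?_
    simp only [hF]
    rw [Real.norm_eq_abs, abs_mul]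
    exact mul_le_mul (tm_le hJ hK (fun h => D h) y.1 y.2) (hAle y.2) (abs_nonneg _)
      (bt_nonneg hJ hK _)
  have e1 : ∀ x : (V → ℤ) × (V → ℤ), ∑' i : E → ℕ × ℕ, F (i, x) = W D J x.1 * W D J x.2 * A x := by
    intro x
    simp only [hF]
    rw [tsum_mul_right]
    congr 1
    have := tm_sum (fun h => D h) hJ hK x
    rw [add_zero] at this
    exact this
  rw [← tsum_congr e1, Summable.tsum_comm (f := fun i x => F (i, x)) hFs]
  refine tsum_nonneg fun i => ?_
  by_cases hi : ∃ e, (i e).2 ≠ 0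
  · obtain ⟨e, he⟩ := hi
    have h0 : ∀ x, F (i, x) = 0 := by
      intro x
      simp only [hF]
      have : tm (fun h => D h) J 0 i x = 0 := by
        unfold tm
        refine Finset.prod_eq_zero (Finset.mem_univ e) ?_
        unfold kt
        simp only [Pi.zero_apply]
        rw [cc_zero_of _ _ he, zero_mul]
      rw [this, zero_mul]
    simp [h0]
  · push Not at hi
    set φ : (V → ℤ) → ℝ := fun s => (∏ e, T1.H934.phi 0 (i e).1 (D s e)) * g s with hφ
    have p0 : ∀ s, 0 ≤ ∏ e, T1.H934.phi 0 (i e).1 (D s e) := fun s =>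
      Finset.prod_nonneg fun e _ => phi_nonneg _ _
    have φ0 : ∀ s, 0 ≤ φ s := fun s => mul_nonneg (p0 s) (g0 s)
    have φe : ∀ s, φ (-s) = φ s := by
      intro s
      simp only [hφ]
      rw [ge]
      congr 1
      refine Finset.prod_congr rfl fun e _ => ?_
      rw [map_neg, Pi.neg_apply, phi_neg]
      ring
    have φc : CHol φ := by
      refine CHol.mul (CHol.prod (fun e _ => hD e (i e).1) fun e _ x => phi_nonneg _ _) gc p0 g0
    have hM : ∀ s, (∏ e, T1.H934.phi 0 (i e).1 (D s e)) ≤ ∏ e, (2 : ℝ) ^ ((i e).1 + 0) := fun s =>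
      Finset.prod_le_prod (fun e _ => phi_nonneg _ _) fun e _ =>
        (le_abs_self _).trans (phi_le _ _ _)
    set M : ℝ := ∏ e, (2 : ℝ) ^ ((i e).1 + 0) with hMd
    have M0 : 0 ≤ M := (p0 0).trans (hM 0)
    have φs : Summable φ := Summable.of_nonneg_of_le φ0
      (fun s => mul_le_mul_of_nonneg_right (hM s) (g0 s)) (hs.mul_left M)
    have φm : ∀ {v : V}, (Summable fun s => |g s * (s v : ℝ)|) →
        Summable fun s => |φ s * (s v : ℝ)| := by
      intro v hv
      refine Summable.of_nonneg_of_le (fun _ => abs_nonneg _) (fun s => ?_) (hv.mul_left M)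
      have : φ s * (s v : ℝ) = (∏ e, T1.H934.phi 0 (i e).1 (D s e)) * (g s * (s v : ℝ)) := by
        simp only [hφ]; ring
      rw [this, abs_mul, abs_of_nonneg (p0 s)]
      exact mul_le_mul_of_nonneg_right (hM s) (abs_nonneg _)
    have key := pair_sum (φm hu) (φm hz) p
    have hnn : 0 ≤ ∑' x : (V → ℤ) × (V → ℤ),
        φ (x.1 + x.2) * ((x.1 + x.2) u : ℝ) * (φ (x.1 - x.2) * ((x.1 - x.2) z : ℝ)) *
          (if x.2 p = 0 then 1 else 0) :=
      key.nonneg fun c => cs_sign φ0 φe φc φs (φm hu) (φm hz) p c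
    have e3 : ∀ x : (V → ℤ) × (V → ℤ), F (i, x) = (∏ e, cc (J e) 0 (i e)) *
        (φ (x.1 + x.2) * ((x.1 + x.2) u : ℝ) * (φ (x.1 - x.2) * ((x.1 - x.2) z : ℝ)) *
          (if x.2 p = 0 then 1 else 0)) := by
      intro x
      simp only [hF, hA, hφ]
      have h5 : tm (fun h => D h) J 0 i x = (∏ e, cc (J e) 0 (i e)) *
          ((∏ e, T1.H934.phi 0 (i e).1 (D (x.1 + x.2) e)) * ∏ e, T1.H934.phi 0 (i e).1 (D (x.1 - x.2) e)) := by
        unfold tm kt
        rw [← Finset.prod_mul_distrib, ← Finset.prod_mul_distrib]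
        refine Finset.prod_congr rfl fun e _ => ?_
        simp only [Pi.zero_apply]
        rw [hi e, map_add, map_sub, Pi.add_apply, Pi.sub_apply]
      rw [h5]
      ring
    rw [tsum_congr e3, tsum_mul_left]
    exact mul_nonneg (Finset.prod_nonneg fun e _ => cc_nonneg (hJ e) le_rfl _) hnn

end core

section model

variable {D : (V → ℤ) →+ (E → ℤ)} {J : E → ℝ} {m : V → ℝ} {X : Set V}

lemma gr_at (u : V) : Gr fun h : V → ℤ => (h u : ℝ) := by
  classical
  have := gr_lf (V := V) (Pi.single u 1)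
  have e : (fun h : V → ℤ => (h u : ℝ)) = fun h => H708.lf (Pi.single u 1) h := by
    funext h
    unfold H708.lf
    simp [Pi.single_apply]
  rw [e]
  exact this

lemma gr_at2 (u z : V) : Gr fun h : V → ℤ => (h u : ℝ) * (h z : ℝ) := (gr_at u).mul (gr_at z)

omit [Fintype V] in
lemma iX_even (X : Set V) (h : V → ℤ) : iX X (-h) = iX X h := by
  unfold iX
  congr 1
  simp

lemma ga_even (m : V → ℝ) (h : V → ℤ) : ga m (-h) = ga m h := by
  unfold ga
  simp

lemma chol_iX (X : Set V) : CHol (iX X) := by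
  classical
  intro x y _
  unfold iX
  by_cases h1 : ∀ v ∈ X, x v = 0
  · by_cases h2 : ∀ v ∈ X, y v = 0
    · rw [if_pos h1, if_pos h2, if_pos, if_pos]
      · intro v hv; rw [Pi.sup_apply, h1 v hv, h2 v hv]; simp
      · intro v hv; rw [Pi.inf_apply, h1 v hv, h2 v hv]; simp
    · rw [if_neg h2, mul_zero]
      split_ifs <;> norm_num
  · rw [if_neg h1, zero_mul]
    split_ifs <;> norm_num

lemma chol_ga (m : V → ℝ) : CHol (ga m) := by
  have e : ga m = fun h : V → ℤ => ∏ x, Real.exp (-(m x / 2 * (h x : ℝ) ^ 2)) := by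
    funext h
    unfold ga
    rw [← Real.exp_sum, Finset.sum_neg_distrib]
  rw [e]
  exact CHol.prod (fun x _ => chol_site (fun k => Real.exp (-(m x / 2 * (k : ℝ) ^ 2))) x)
    fun x _ h => (Real.exp_pos _).le

lemma iX_insert (X : Set V) (p : V) (h : V → ℤ) :
    iX (insert p X) h = iX X h * (if h p = 0 then 1 else 0) := by
  classical
  unfold iX
  simp only [Set.mem_insert_iff, forall_eq_or_imp]
  by_cases h1 : h p = 0
  · simp [h1]
  · simp [h1]

lemma bw_insert (p : V) (h : V → ℤ) :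
    bw D J m (insert p X) h = bw D J m X h * (if h p = 0 then 1 else 0) := by
  unfold bw
  rw [iX_insert]
  ring

/-- summability of the duplicated weight -/
lemma summable_half (hm : ∀ x, 0 < m x) (X : Set V) {F : (V → ℤ) → ℝ} (hF : Gr F) :
    Summable fun s : V → ℤ => |ga (fun x => m x / 2) s * iX X s * F s| := by
  have h := summable_ga_mul (m := fun x => m x / 2) (fun x => by have := hm x; positivity)
    (Gr.mul (Gr.of_bdd (C := 1) (F := iX X) fun h => by
      rw [abs_of_nonneg (iX_nonneg X h)]; exact iX_le X h) hF)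
  refine h.congr fun s => ?_
  rw [mul_assoc]

open Classical in
/-- one pin -/
theorem entry_one (hL : Lat D) (hJ : ∀ e, 0 ≤ J e) (hm : ∀ x, 0 < m x) (X : Set V) (p u z : V) :
    SS D J m (insert p X) (fun h => (h u : ℝ) * (h z : ℝ)) * SS D J m X (fun _ => 1) ≤
      SS D J m X (fun h => (h u : ℝ) * (h z : ℝ)) * SS D J m (insert p X) fun _ => 1 := by
  set g : (V → ℤ) → ℝ := fun s => ga (fun x => m x / 2) s * iX X s with hg
  have g0 : ∀ s, 0 ≤ g s := fun s => mul_nonneg (ga_pos _ s).le (iX_nonneg X s)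
  have ge : ∀ s, g (-s) = g s := fun s => by simp only [hg]; rw [ga_even, iX_even]
  have gc : CHol g := CHol.mul (chol_ga _) (chol_iX X) (fun s => (ga_pos _ s).le) (iX_nonneg X)
  have gs : Summable g := by
    have := summable_half hm X (Gr.one (V := V))
    simp only [mul_one] at this
    exact this.of_abs
  have h1 := entry_core D hL hJ g0 ge gc gs (summable_half hm X (gr_at u))
    (summable_half hm X (gr_at z)) p
  have h2 := entry_core D hL hJ g0 ge gc gs (summable_half hm X (gr_at z))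
    (summable_half hm X (gr_at u)) p
  -- the two products
  have a1 := bw_summable (D := D) (X := X) hJ hm (Gr.one (V := V))
  have aG := bw_summable (D := D) (X := X) hJ hm (gr_at2 u z)
  have b1 := bw_summable (D := D) (X := insert p X) hJ hm (Gr.one (V := V))
  have bG := bw_summable (D := D) (X := insert p X) hJ hm (gr_at2 u z)
  have k1 := (hasSum_mul_pair aG b1).sub (hasSum_mul_pair a1 bG)
  have key : ∀ x : (V → ℤ) × (V → ℤ), ∀ v w : V, W D J x.1 * W D J x.2 *
      ((g (x.1 + x.2) * ((x.1 + x.2) v : ℝ)) * (g (x.1 - x.2) * ((x.1 - x.2) w : ℝ)) *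
        (if x.2 p = 0 then 1 else 0)) = bw D J m X x.1 * bw D J m (insert p X) x.2 *
        (((x.1 v : ℝ) + x.2 v) * ((x.1 w : ℝ) - x.2 w)) := by
    intro x v w
    have e1 := ga_split m x.1 x.2
    have e2 := iX_split X x.1 x.2
    rw [bw_insert]
    unfold bw
    simp only [hg, Pi.add_apply, Pi.sub_apply]
    push_cast
    have e3 : ga (fun x => m x / 2) (x.1 + x.2) * iX X (x.1 + x.2) *
        (ga (fun x => m x / 2) (x.1 - x.2) * iX X (x.1 - x.2)) =
        (ga m x.1 * iX X x.1) * (ga m x.2 * iX X x.2) := by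
      calc _ = (ga (fun x => m x / 2) (x.1 + x.2) * ga (fun x => m x / 2) (x.1 - x.2)) *
          (iX X (x.1 + x.2) * iX X (x.1 - x.2)) := by ring
        _ = _ := by rw [← e1, ← e2]; ring
    linear_combination (W D J x.1 * W D J x.2 * (((x.1 v : ℝ) + x.2 v) * ((x.1 w : ℝ) - x.2 w)) *
      (if x.2 p = 0 then 1 else 0)) * e3
  simp only [key] at h1 h2
  have s1 : Summable fun x : (V → ℤ) × (V → ℤ) => bw D J m X x.1 * bw D J m (insert p X) x.2 *
        (((x.1 u : ℝ) + x.2 u) * ((x.1 z : ℝ) - x.2 z)) := by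
    have c1 := bw_summable (D := D) (X := X) hJ hm (gr_at u)
    have c2 := bw_summable (D := D) (X := X) hJ hm (gr_at z)
    have d1 := bw_summable (D := D) (X := insert p X) hJ hm (gr_at u)
    have d2 := bw_summable (D := D) (X := insert p X) hJ hm (gr_at z)
    have := (((hasSum_mul_pair aG b1).sub (hasSum_mul_pair a1 bG)).add
      (hasSum_mul_pair c2 d1)).sub (hasSum_mul_pair c1 d2)
    refine this.summable.congr fun x => ?_
    ring
  have s2 : Summable fun x : (V → ℤ) × (V → ℤ) => bw D J m X x.1 * bw D J m (insert p X) x.2 *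
        (((x.1 z : ℝ) + x.2 z) * ((x.1 u : ℝ) - x.2 u)) := by
    have c1 := bw_summable (D := D) (X := X) hJ hm (gr_at u)
    have c2 := bw_summable (D := D) (X := X) hJ hm (gr_at z)
    have d1 := bw_summable (D := D) (X := insert p X) hJ hm (gr_at u)
    have d2 := bw_summable (D := D) (X := insert p X) hJ hm (gr_at z)
    have := (((hasSum_mul_pair aG b1).sub (hasSum_mul_pair a1 bG)).add
      (hasSum_mul_pair c1 d2)).sub (hasSum_mul_pair c2 d1)
    refine this.summable.congr fun x => ?_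
    ring
  have h3 := add_nonneg h1 h2
  rw [← s1.tsum_add s2] at h3
  have h4 : ∑' x : (V → ℤ) × (V → ℤ), (bw D J m X x.1 * bw D J m (insert p X) x.2 *
        (((x.1 u : ℝ) + x.2 u) * ((x.1 z : ℝ) - x.2 z)) +
        bw D J m X x.1 * bw D J m (insert p X) x.2 *
        (((x.1 z : ℝ) + x.2 z) * ((x.1 u : ℝ) - x.2 u))) =
      2 * (SS D J m X (fun h => (h u : ℝ) * (h z : ℝ)) * SS D J m (insert p X) (fun _ => 1) -
        SS D J m X (fun _ => 1) * SS D J m (insert p X) (fun h => (h u : ℝ) * (h z : ℝ))) := by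
    unfold SS
    rw [← (k1.mul_left 2).tsum_eq]
    refine tsum_congr fun x => ?_
    ring
  rw [h4] at h3
  linarith

/-- covariance (the mean is zero) -/
noncomputable def Cv (D : (V → ℤ) →+ (E → ℤ)) (J : E → ℝ) (m : V → ℝ) (X : Set V) (u z : V) : ℝ :=
  SS D J m X (fun h => (h u : ℝ) * (h z : ℝ)) / SS D J m X fun _ => 1

/-- **Entrywise monotonicity**, one pin. -/
theorem cv_insert_le (hL : Lat D) (hJ : ∀ e, 0 ≤ J e) (hm : ∀ x, 0 < m x) (X : Set V)
    (p u z : V) : Cv D J m (insert p X) u z ≤ Cv D J m X u z := by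
  unfold Cv
  rw [div_le_div_iff₀ (SS_one_pos D hJ hm _) (SS_one_pos D hJ hm _)]
  exact entry_one hL hJ hm X p u z

/-- **Entrywise monotonicity.** -/
theorem cv_mono (hL : Lat D) (hJ : ∀ e, 0 ≤ J e) (hm : ∀ x, 0 < m x) {X Y : Set V}
    (h : X ⊆ Y) (u z : V) : Cv D J m Y u z ≤ Cv D J m X u z := by
  classical
  have key : ∀ S : Finset V, Cv D J m (X ∪ ↑S) u z ≤ Cv D J m X u z := by
    intro S
    induction S using Finset.induction_on with
    | empty => simp
    | insert a S _ ih =>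
      rw [Finset.coe_insert, Set.union_insert]
      exact (cv_insert_le hL hJ hm _ a u z).trans ih
  have e : Y = X ∪ ↑(Finset.univ.filter fun v => v ∈ Y) := by
    ext v
    simp only [Finset.coe_filter, Finset.mem_univ, true_and, Set.mem_union]
    exact ⟨Or.inr, fun h' => h'.elim (fun h'' => h h'') id⟩
  rw [e]
  exact key _

lemma bw_zero_of {p : V} (hp : p ∈ X) {h : V → ℤ} (h0 : h p ≠ 0) : bw D J m X h = 0 := by
  unfold bw iX
  rw [if_neg fun h' => h0 (h' p hp), mul_zero, mul_zero]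

/-- the covariance vanishes at pinned sites -/
lemma cv_pin {p : V} (hp : p ∈ X) (z : V) : Cv D J m X p z = 0 := by
  unfold Cv SS
  rw [div_eq_zero_iff]
  left
  rw [← tsum_zero]
  refine tsum_congr fun h => ?_
  by_cases h0 : h p = 0
  · simp [h0]
  · rw [bw_zero_of hp h0, zero_mul]

lemma cv_comm (u z : V) : Cv D J m X u z = Cv D J m X z u := by
  unfold Cv
  congr 2
  funext h
  ring

/-- **The covariance is nonnegative.** -/
theorem cv_nonneg (hL : Lat D) (hJ : ∀ e, 0 ≤ J e) (hm : ∀ x, 0 < m x) (X : Set V) (u z : V) :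
    0 ≤ Cv D J m X u z := by
  have := cv_insert_le hL hJ hm X u u z
  rwa [cv_pin (Set.mem_insert u X)] at this

end model

end Vale.Agent.P159.TM.H265
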