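import Vale.Agent.P159.TM.H265.Vt
import Vale.Agent.P159.TM.H705.BoxCv
import Vale.Agent.P159.TM.H764.Wave

/-!
P159, row A5I, model side: from part (1) of Theorem A (clusters leaving balls) on a torus of
arbitrary size to (V1) the loss of the kernel in a box, (V2) truncated exponential and polynomial
moments, (V3) the full fourth moment on tori of polynomial size.
-/

open Finset
open scoped ENNReal

set_option linter.unusedSectionVars false

namespace Vale.Agent.P159.TM.H265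

open Vale.Agent.P159.TM.H60 Vale.Agent.P159.TM.Spec Vale.Agent.P159.TM.H459
open Vale.Agent.P159.TM.H705 (CN AB bx b0 dB pt tsn outB)

variable {N : ℕ} [NeZero N] {b : ℝ} {ξ : ℕ} {y c C : ℝ}

/-- Theorem A (1) in literal form -/
def HA (N : ℕ) [NeZero N] (b : ℝ) (ξ : ℕ) (hb : 0 ≤ b) (y c C : ℝ) : Prop :=
  ∀ (x0 : V N) (n : ℕ), (n : ℝ) * y ≤ c * ξ →
    Ele (σ1 N b ξ hb) (WF (σ1 N b ξ hb) (ball x0 ξ) (ball x0 n))
      (C * (ξ : ℝ) ^ 4 * Real.exp (-(c * n / ξ)))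

theorem vma_nat {i : ℕ} (h : 2 * i ≤ N) : ((i : ZMod N)).valMinAbs = i :=
  ZMod.valMinAbs_natCast_of_le_half (by omega)

theorem card_ball_ge (h : 2 * ξ ≤ N) (x0 : V N) : ξ ^ 2 ≤ (ball x0 ξ).card := by
  classical
  have h1 : (range ξ ×ˢ range ξ).card ≤ (ball x0 ξ).card := by
    refine card_le_card_of_injOn (fun p => x0 + ((p.1 : ZMod N), (p.2 : ZMod N))) ?_ ?_
    · intro p hp
      have hp' := mem_product.1 (mem_coe.1 hp)
      rw [mem_range, mem_range] at hp'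
      refine mem_coe.2 (mem_ball.2 ?_)
      unfold sd
      rw [add_sub_cancel_left]
      unfold sn
      rw [vma_nat (i := p.1) (by omega), vma_nat (i := p.2) (by omega)]
      simp only [Int.natAbs_natCast]
      omega
    · intro p hp q hq hpq
      have hp' := mem_product.1 (mem_coe.1 hp)
      have hq' := mem_product.1 (mem_coe.1 hq)
      rw [mem_range, mem_range] at hp' hq'
      have h2 := add_left_cancel hpq
      have e1 := congrArg (fun w : V N => w.1.valMinAbs) h2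
      have e2 := congrArg (fun w : V N => w.2.valMinAbs) h2
      simp only at e1 e2
      rw [vma_nat (i := p.1) (by omega), vma_nat (i := q.1) (by omega)] at e1
      rw [vma_nat (i := p.2) (by omega), vma_nat (i := q.2) (by omega)] at e2
      exact Prod.ext (by exact_mod_cast e1) (by exact_mod_cast e2)
  rw [card_product, card_range] at h1
  rw [pow_two]
  exact h1

theorem sum_G_le (hb : 0 ≤ b) (hξ : 1 ≤ ξ) : ∑ w, H41.G b N (ξ : ℝ) w ≤ (ξ : ℝ) ^ 2 := by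
  have hξ' : (0 : ℝ) < ξ := by exact_mod_cast hξ
  have k0 := H41.Gh_le (N := N) hb hξ' 0
  rwa [H705.Gh_zero] at k0

/-- **annulus estimate** -/
theorem ann (hb : 0 ≤ b) (hξ : 1 ≤ ξ) (hN : 2 * ξ ≤ N) (hC : 0 ≤ C) (hA : HA N b ξ hb y c C)
    {m : ℕ} (hm : (m : ℝ) * y ≤ c * ξ) (hξm : ξ ≤ m) {T S : Finset (V N)}
    (hT : ∀ w ∈ T, m + ξ < sn w) (hS : ∀ w ∈ T, ∀ u ∈ ball (0 : V N) ξ, u + w ∈ S) :
    ∑ w ∈ T, H41.G b N (ξ : ℝ) w ≤
      √C * ξ * √(S.card : ℝ) * Real.exp (-(c * m / (2 * ξ))) := by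
  classical
  have hξ' : (0 : ℝ) < ξ := by exact_mod_cast hξ
  set E := Real.exp (-(c * m / (2 * ξ))) with hE
  have hE0 : 0 < E := Real.exp_pos _
  have hE2 : Real.exp (-(c * m / ξ)) = E ^ 2 := by
    rw [hE, ← Real.exp_nat_mul]
    congr 1
    push_cast
    field_simp
  have hw : 0 ≤ C * (ξ : ℝ) ^ 4 * Real.exp (-(c * m / ξ)) := by positivity
  have h1 := vt1 (N := N) hb (by omega : 0 < ξ) (B := ball 0 ξ) (P := (ball 0 m)ᶜ)
    (Λ := ball 0 m) (ball_mono hξm) disjoint_compl_left hw (hA 0 m hm) (S \ ball 0 m)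
  have h2 : ((ball (0 : V N) ξ).card : ℝ) * ∑ w ∈ T, H41.G b N (ξ : ℝ) w ≤
      ∑ u ∈ ball (0 : V N) ξ, ∑ z ∈ S \ ball 0 m,
        (H41.G b N (ξ : ℝ) (z - u) - CT b (ξ : ℝ) (((ball 0 m)ᶜ : Finset (V N)) : Set (V N)) u z) := by
    rw [← nsmul_eq_mul, ← sum_const]
    refine sum_le_sum fun u hu => ?_
    have h3 : ∀ z ∈ S \ ball (0 : V N) m,
        H41.G b N (ξ : ℝ) (z - u) -
          CT b (ξ : ℝ) (((ball 0 m)ᶜ : Finset (V N)) : Set (V N)) u z =
        H41.G b N (ξ : ℝ) (z - u) := by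
      intro z hz
      have h4 : CT b (ξ : ℝ) (((ball 0 m)ᶜ : Finset (V N)) : Set (V N)) u z = 0 := by
        unfold CT
        rw [cv_comm]
        refine cv_pin ?_ u
        rw [mem_coe, mem_compl]
        exact (mem_sdiff.1 hz).2
      rw [h4, sub_zero]
    rw [sum_congr rfl h3]
    have h5 : ∑ w ∈ T, H41.G b N (ξ : ℝ) w =
        ∑ z ∈ T.image (fun w => u + w), H41.G b N (ξ : ℝ) (z - u) := by
      rw [sum_image (fun w _ w' _ h => add_left_cancel h)]
      refine sum_congr rfl fun w _ => ?_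
      rw [add_sub_cancel_left]
    rw [h5]
    refine sum_le_sum_of_subset_of_nonneg ?_ fun z _ _ => H41.G_nonneg hb hξ' _
    intro z hz
    obtain ⟨w, hw', rfl⟩ := mem_image.1 hz
    refine mem_sdiff.2 ⟨hS w hw' u hu, ?_⟩
    intro h6
    rw [mem_ball] at h6 hu
    unfold sd at h6 hu
    rw [sub_zero] at h6 hu
    have h7 := hT w hw'
    have h8 := sn_add_le (u + w) (-u)
    rw [sn_neg, add_neg_cancel_comm] at h8
    omega
  have h9 : √(C * (ξ : ℝ) ^ 4 * Real.exp (-(c * m / ξ)) * (ξ : ℝ) ^ 2 *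
      ((S \ ball (0 : V N) m).card : ℝ)) ≤ √C * (ξ : ℝ) ^ 3 * E * √(S.card : ℝ) := by
    rw [Real.sqrt_le_iff]
    refine ⟨by positivity, ?_⟩
    have h10 : (√C * (ξ : ℝ) ^ 3 * E * √(S.card : ℝ)) ^ 2 =
        C * (ξ : ℝ) ^ 4 * E ^ 2 * (ξ : ℝ) ^ 2 * (S.card : ℝ) := by
      rw [mul_pow, mul_pow, mul_pow, Real.sq_sqrt hC, Real.sq_sqrt (Nat.cast_nonneg _)]
      ring
    rw [h10, hE2]
    have h11 : ((S \ ball (0 : V N) m).card : ℝ) ≤ (S.card : ℝ) := by
      exact_mod_cast card_le_card sdiff_subset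
    gcongr
  have h12 : (ξ : ℝ) ^ 2 ≤ ((ball (0 : V N) ξ).card : ℝ) := by
    exact_mod_cast card_ball_ge hN 0
  have h13 : 0 ≤ ∑ w ∈ T, H41.G b N (ξ : ℝ) w := sum_nonneg fun w _ => H41.G_nonneg hb hξ' _
  have h14 : (ξ : ℝ) ^ 2 * ∑ w ∈ T, H41.G b N (ξ : ℝ) w ≤
      (ξ : ℝ) ^ 2 * (√C * ξ * √(S.card : ℝ) * E) := by
    calc (ξ : ℝ) ^ 2 * ∑ w ∈ T, H41.G b N (ξ : ℝ) w ≤
          ((ball (0 : V N) ξ).card : ℝ) * ∑ w ∈ T, H41.G b N (ξ : ℝ) w :=
          mul_le_mul_of_nonneg_right h12 h13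
      _ ≤ _ := h2.trans (h1.trans h9)
      _ = _ := by ring
  exact le_of_mul_le_mul_left h14 (by positivity)

/-- **full tail** -/
theorem vt (hb : 0 ≤ b) (hξ : 1 ≤ ξ) (hN : 2 * ξ ≤ N) (hC : 0 ≤ C) (hA : HA N b ξ hb y c C)
    {m : ℕ} (hm : (m : ℝ) * y ≤ c * ξ) (hξm : ξ ≤ m) :
    ∑ w ∈ univ.filter (fun w : V N => m + ξ < sn w), H41.G b N (ξ : ℝ) w ≤
      √C * ξ * N * Real.exp (-(c * m / (2 * ξ))) := by
  have h := ann hb hξ hN hC hA hm hξm (T := univ.filter (fun w : V N => m + ξ < sn w))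
    (S := univ) (fun w hw => (mem_filter.1 hw).2) (fun _ _ _ _ => mem_univ _)
  rw [card_univ, H764.card_V, Real.sqrt_sq (Nat.cast_nonneg N)] at h
  exact h

/-- the constant of one shell -/
noncomputable def D1 (c C : ℝ) : ℝ := Real.exp c * (1 + √C * (8 / c + 5))

theorem D1_pos (hc : 0 < c) : 0 < D1 c C := by
  unfold D1
  have := Real.sqrt_nonneg C
  positivity

theorem shell (hb : 0 ≤ b) (hξ : 1 ≤ ξ) (hN : 2 * ξ ≤ N) (hc : 0 < c) (hC : 0 ≤ C)
    (hy : 0 ≤ y) (hA : HA N b ξ hb y c C) {R : ℕ} (hR : (R : ℝ) * y ≤ c * ξ) (k : ℕ) :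
    ∑ w ∈ univ.filter (fun w : V N => sn w ≤ R ∧ sn w / ξ = k), H41.G b N (ξ : ℝ) w ≤
      D1 c C * (ξ : ℝ) ^ 2 * Real.exp (-(c * k / 4)) := by
  classical
  have hξ' : (0 : ℝ) < ξ := by exact_mod_cast hξ
  have hsC := Real.sqrt_nonneg C
  have hnn : 0 ≤ √C * (8 / c + 5) := by positivity
  set T := univ.filter (fun w : V N => sn w ≤ R ∧ sn w / ξ = k) with hTd
  rcases Nat.lt_or_ge k 3 with hk | hk
  · have h1 : ∑ w ∈ T, H41.G b N (ξ : ℝ) w ≤ (ξ : ℝ) ^ 2 :=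
      (sum_le_sum_of_subset_of_nonneg (subset_univ _)
        fun w _ _ => H41.G_nonneg hb hξ' _).trans (sum_G_le hb hξ)
    have hk' : (k : ℝ) ≤ 2 := by exact_mod_cast Nat.lt_succ_iff.1 hk
    have h2 : 1 ≤ Real.exp c * Real.exp (-(c * k / 4)) := by
      rw [← Real.exp_add]
      refine Real.one_le_exp ?_
      nlinarith
    have h3 : 1 ≤ D1 c C * Real.exp (-(c * k / 4)) := by
      unfold D1
      have h4 : 0 ≤ Real.exp c * (√C * (8 / c + 5)) * Real.exp (-(c * k / 4)) := by positivity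
      nlinarith
    have h5 : (ξ : ℝ) ^ 2 * 1 ≤ (ξ : ℝ) ^ 2 * (D1 c C * Real.exp (-(c * k / 4))) :=
      mul_le_mul_of_nonneg_left h3 (by positivity)
    linarith
  · rcases T.eq_empty_or_nonempty with he | ⟨w0, hw0⟩
    · rw [he, sum_empty]
      have := D1_pos (C := C) hc
      positivity
    have hw0' := (mem_filter.1 hw0).2
    have hk0 : k * ξ ≤ sn w0 := by
      rw [← hw0'.2]
      exact Nat.div_mul_le_self _ _
    set m := (k - 2) * ξ with hmd
    have hmk : m + 2 * ξ = k * ξ := by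
      rw [hmd, ← Nat.add_mul]
      congr 1
      omega
    have hm : (m : ℝ) * y ≤ c * ξ := by
      refine le_trans ?_ hR
      refine mul_le_mul_of_nonneg_right ?_ hy
      have : m ≤ R := by omega
      exact_mod_cast this
    have hξm : ξ ≤ m := by
      rw [hmd]
      exact Nat.le_mul_of_pos_left _ (by omega)
    have h1 := ann hb hξ hN hC hA hm hξm (T := T) (S := ball 0 ((k + 2) * ξ)) ?_ ?_
    · refine h1.trans ?_
      have h2 : √((ball (0 : V N) ((k + 2) * ξ)).card : ℝ) ≤ (2 * k + 5) * ξ := by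
        rw [Real.sqrt_le_iff]
        refine ⟨by positivity, ?_⟩
        have h3 := card_ball_le (0 : V N) ((k + 2) * ξ)
        have h4 : ((ball (0 : V N) ((k + 2) * ξ)).card : ℝ) ≤ (2 * ((k + 2) * ξ) + 1) ^ 2 := by
          exact_mod_cast h3
        refine h4.trans ?_
        have h5 : (1 : ℝ) ≤ ξ := by exact_mod_cast hξ
        have h6 : (0 : ℝ) ≤ 2 * ((k + 2) * ξ) + 1 := by positivity
        refine pow_le_pow_left₀ h6 ?_ 2
        nlinarith
      have hmr : (m : ℝ) = (k - 2) * ξ := by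
        have : ((m + 2 * ξ : ℕ) : ℝ) = ((k * ξ : ℕ) : ℝ) := by rw [hmk]
        push_cast at this
        linarith
      have h7 : Real.exp (-(c * m / (2 * ξ))) = Real.exp c * Real.exp (-(c * k / 4)) *
          Real.exp (-(c * k / 4)) := by
        rw [← Real.exp_add, ← Real.exp_add, hmr]
        congr 1
        field_simp
        ring
      have h8 : (2 * k + 5 : ℝ) * Real.exp (-(c * k / 4)) ≤ 8 / c + 5 := by
        have h9 : c * k / 4 ≤ Real.exp (c * k / 4) := by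
          have := Real.add_one_le_exp (c * k / 4)
          linarith
        have h10 : (1 : ℝ) ≤ Real.exp (c * k / 4) := Real.one_le_exp (by positivity)
        rw [Real.exp_neg, ← div_eq_mul_inv, div_le_iff₀ (Real.exp_pos _)]
        have h11 : (2 * k + 5 : ℝ) = 8 / c * (c * k / 4) + 5 := by
          field_simp
          ring
        rw [h11, add_mul]
        have h12 : 8 / c * (c * k / 4) ≤ 8 / c * Real.exp (c * k / 4) :=
          mul_le_mul_of_nonneg_left h9 (by positivity)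
        linarith
      rw [h7]
      have h13 : √C * ξ * √((ball (0 : V N) ((k + 2) * ξ)).card : ℝ) *
          (Real.exp c * Real.exp (-(c * k / 4)) * Real.exp (-(c * k / 4))) ≤
          √C * ξ * ((2 * k + 5) * ξ) *
          (Real.exp c * Real.exp (-(c * k / 4)) * Real.exp (-(c * k / 4))) := by
        gcongr
      refine h13.trans ?_
      have h14 : √C * ξ * ((2 * k + 5) * ξ) *
          (Real.exp c * Real.exp (-(c * k / 4)) * Real.exp (-(c * k / 4))) =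
          √C * ((2 * k + 5 : ℝ) * Real.exp (-(c * k / 4))) * Real.exp c * (ξ : ℝ) ^ 2 *
            Real.exp (-(c * k / 4)) := by ring
      rw [h14]
      have h15 : √C * ((2 * k + 5 : ℝ) * Real.exp (-(c * k / 4))) * Real.exp c ≤ D1 c C := by
        unfold D1
        have h16 : √C * ((2 * k + 5 : ℝ) * Real.exp (-(c * k / 4))) ≤ √C * (8 / c + 5) :=
          mul_le_mul_of_nonneg_left h8 hsC
        have h17 := Real.exp_pos c
        nlinarith
      gcongr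
    · intro w hw
      have hw' := (mem_filter.1 hw).2
      have : k * ξ ≤ sn w := by
        rw [← hw'.2]
        exact Nat.div_mul_le_self _ _
      omega
    · intro w hw u hu
      have hw' := (mem_filter.1 hw).2
      rw [mem_ball] at hu ⊢
      unfold sd at hu ⊢
      rw [sub_zero] at hu ⊢
      have h2 := sn_add_le u w
      have h3 : sn w < (k + 1) * ξ := by
        rw [← hw'.2]
        exact Nat.lt_mul_of_div_lt (Nat.lt_succ_self _) (by omega)
      have h4 : (k + 2) * ξ = (k + 1) * ξ + ξ := by ring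
      omega

theorem geom_le {r : ℝ} (h0 : 0 ≤ r) (h1 : r < 1) (n : ℕ) :
    ∑ k ∈ range n, r ^ k ≤ 1 / (1 - r) := by
  have h := (summable_geometric_of_lt_one h0 h1).sum_le_tsum (range n) fun k _ => pow_nonneg h0 k
  rw [tsum_geometric_of_lt_one h0 h1] at h
  rw [one_div]
  exact h

/-- the constant of the truncated exponential moment -/
noncomputable def K2 (c C : ℝ) : ℝ :=
  D1 c C * Real.exp (c / 8) * (1 / (1 - Real.exp (-(c / 8))))

theorem exp_lt (hc : 0 < c) : Real.exp (-(c / 8)) < 1 := by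
  rw [Real.exp_lt_one_iff]
  linarith

theorem K2_pos (hc : 0 < c) : 0 < K2 c C := by
  unfold K2
  have h1 := D1_pos (C := C) hc
  have h2 := exp_lt hc
  have h3 : 0 < 1 - Real.exp (-(c / 8)) := by linarith
  positivity

/-- **(V2)**: truncated exponential moment -/
theorem v2 (hb : 0 ≤ b) (hξ : 1 ≤ ξ) (hN : 2 * ξ ≤ N) (hc : 0 < c) (hC : 0 ≤ C)
    (hy : 0 ≤ y) (hA : HA N b ξ hb y c C) {R : ℕ} (hR : (R : ℝ) * y ≤ c * ξ) :
    ∑ w ∈ univ.filter (fun w : V N => sn w ≤ R),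
      H41.G b N (ξ : ℝ) w * Real.exp (c / 8 * sn w / ξ) ≤ K2 c C * (ξ : ℝ) ^ 2 := by
  classical
  have hξ' : (0 : ℝ) < ξ := by exact_mod_cast hξ
  have hG := fun w => H41.G_nonneg (N := N) hb hξ' w
  set n := R / ξ + 1 with hn
  have h1 : ∑ w ∈ univ.filter (fun w : V N => sn w ≤ R),
      H41.G b N (ξ : ℝ) w * Real.exp (c / 8 * sn w / ξ) =
      ∑ k ∈ range n, ∑ w ∈ univ.filter (fun w : V N => sn w ≤ R ∧ sn w / ξ = k),
        H41.G b N (ξ : ℝ) w * Real.exp (c / 8 * sn w / ξ) := by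
    rw [← sum_fiberwise_of_maps_to (s := univ.filter (fun w : V N => sn w ≤ R)) (t := range n)
      (g := fun w => sn w / ξ)]
    · refine sum_congr rfl fun k _ => ?_
      rw [filter_filter]
    · intro w hw
      rw [mem_range, hn]
      exact Nat.lt_succ_of_le (Nat.div_le_div_right (mem_filter.1 hw).2)
  rw [h1]
  have h2 : ∀ k ∈ range n, ∑ w ∈ univ.filter (fun w : V N => sn w ≤ R ∧ sn w / ξ = k),
      H41.G b N (ξ : ℝ) w * Real.exp (c / 8 * sn w / ξ) ≤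
      D1 c C * Real.exp (c / 8) * (ξ : ℝ) ^ 2 * Real.exp (-(c / 8)) ^ k := by
    intro k _
    have h3 : ∀ w ∈ univ.filter (fun w : V N => sn w ≤ R ∧ sn w / ξ = k),
        H41.G b N (ξ : ℝ) w * Real.exp (c / 8 * sn w / ξ) ≤
        H41.G b N (ξ : ℝ) w * Real.exp (c / 8 * (k + 1)) := by
      intro w hw
      refine mul_le_mul_of_nonneg_left (Real.exp_le_exp.2 ?_) (hG w)
      have hw' := (mem_filter.1 hw).2
      have h4 : sn w < (k + 1) * ξ := by
        rw [← hw'.2]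
        exact Nat.lt_mul_of_div_lt (Nat.lt_succ_self _) (by omega)
      have h5 : (sn w : ℝ) ≤ (k + 1) * ξ := by exact_mod_cast h4.le
      rw [div_le_iff₀ hξ', mul_assoc]
      exact mul_le_mul_of_nonneg_left h5 (by positivity)
    refine (sum_le_sum h3).trans ?_
    rw [← sum_mul]
    have h6 := shell hb hξ hN hc hC hy hA hR k
    have h7 : (∑ w ∈ univ.filter (fun w : V N => sn w ≤ R ∧ sn w / ξ = k),
        H41.G b N (ξ : ℝ) w) * Real.exp (c / 8 * (k + 1)) ≤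
        D1 c C * (ξ : ℝ) ^ 2 * Real.exp (-(c * k / 4)) * Real.exp (c / 8 * (k + 1)) :=
      mul_le_mul_of_nonneg_right h6 (Real.exp_pos _).le
    refine h7.trans (le_of_eq ?_)
    rw [← Real.exp_nat_mul]
    have h8 : Real.exp (-(c * k / 4)) * Real.exp (c / 8 * (k + 1)) =
        Real.exp (c / 8) * Real.exp ((k : ℝ) * -(c / 8)) := by
      rw [← Real.exp_add, ← Real.exp_add]
      congr 1
      ring
    calc D1 c C * (ξ : ℝ) ^ 2 * Real.exp (-(c * k / 4)) * Real.exp (c / 8 * (k + 1))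
        = D1 c C * (ξ : ℝ) ^ 2 * (Real.exp (-(c * k / 4)) * Real.exp (c / 8 * (k + 1))) := by
          ring
      _ = _ := by rw [h8]; ring
  refine (sum_le_sum h2).trans ?_
  rw [← mul_sum]
  have h9 := geom_le (Real.exp_pos (-(c / 8))).le (exp_lt hc) n
  have h10 : 0 ≤ D1 c C * Real.exp (c / 8) * (ξ : ℝ) ^ 2 := by
    have := (D1_pos (C := C) hc).le
    positivity
  refine (mul_le_mul_of_nonneg_left h9 h10).trans (le_of_eq ?_)
  unfold K2
  ring

/-- the constant of the truncated moment of order `j` -/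
noncomputable def K3 (c C : ℝ) (j : ℕ) : ℝ := K2 c C * ((j.factorial : ℝ) * (8 / c) ^ j)

theorem K3_pos (hc : 0 < c) (j : ℕ) : 0 < K3 c C j := by
  unfold K3
  have h1 := K2_pos (C := C) hc
  have h2 : (0 : ℝ) < (j.factorial : ℝ) := by exact_mod_cast j.factorial_pos
  positivity

theorem v2s (hb : 0 ≤ b) (hξ : 1 ≤ ξ) (hN : 2 * ξ ≤ N) (hc : 0 < c) (hC : 0 ≤ C)
    (hy : 0 ≤ y) (hA : HA N b ξ hb y c C) {R : ℕ} (hR : (R : ℝ) * y ≤ c * ξ) (j : ℕ) :
    tsn R (H41.G b N (ξ : ℝ)) (fun w => (sn w : ℝ) ^ j) ≤ K3 c C j * (ξ : ℝ) ^ (2 + j) := by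
  have hξ' : (0 : ℝ) < ξ := by exact_mod_cast hξ
  have hG := fun w => H41.G_nonneg (N := N) hb hξ' w
  have h := v2 hb hξ hN hc hC hy hA hR
  have hf : (0 : ℝ) < (j.factorial : ℝ) := by exact_mod_cast j.factorial_pos
  have hc0 : (0 : ℝ) ≤ (j.factorial : ℝ) * (8 / c) ^ j * (ξ : ℝ) ^ j := by positivity
  have h1 : tsn R (H41.G b N (ξ : ℝ)) (fun w => (sn w : ℝ) ^ j) ≤
      ((j.factorial : ℝ) * (8 / c) ^ j * (ξ : ℝ) ^ j) *
      ∑ w ∈ univ.filter (fun w : V N => sn w ≤ R),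
        H41.G b N (ξ : ℝ) w * Real.exp (c / 8 * sn w / ξ) := by
    unfold tsn
    rw [mul_sum]
    refine sum_le_sum fun w _ => ?_
    have h2 := Real.pow_div_factorial_le_exp (c / 8 * sn w / ξ) (by positivity) j
    rw [div_le_iff₀ hf] at h2
    have h3 : (sn w : ℝ) ^ j = (c / 8 * sn w / ξ) ^ j * ((8 / c) ^ j * (ξ : ℝ) ^ j) := by
      rw [← mul_pow, ← mul_pow]
      congr 1
      field_simp
    have h4 : (sn w : ℝ) ^ j ≤ ((j.factorial : ℝ) * (8 / c) ^ j * (ξ : ℝ) ^ j) *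
        Real.exp (c / 8 * sn w / ξ) := by
      rw [h3]
      calc (c / 8 * sn w / ξ) ^ j * ((8 / c) ^ j * (ξ : ℝ) ^ j)
          ≤ (Real.exp (c / 8 * sn w / ξ) * j.factorial) * ((8 / c) ^ j * (ξ : ℝ) ^ j) :=
            mul_le_mul_of_nonneg_right h2 (by positivity)
        _ = _ := by ring
    calc (sn w : ℝ) ^ j * H41.G b N (ξ : ℝ) w ≤
        (((j.factorial : ℝ) * (8 / c) ^ j * (ξ : ℝ) ^ j) * Real.exp (c / 8 * sn w / ξ)) *
          H41.G b N (ξ : ℝ) w := mul_le_mul_of_nonneg_right h4 (hG w)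
      _ = _ := by ring
  refine h1.trans ((mul_le_mul_of_nonneg_left h hc0).trans (le_of_eq ?_))
  unfold K3
  rw [pow_add]
  ring

theorem vma_le_sn (w : V N) : |(w.1.valMinAbs : ℝ)| ≤ (sn w : ℝ) := by
  have h1 : |(w.1.valMinAbs : ℝ)| = (w.1.valMinAbs.natAbs : ℝ) := by
    rw [Nat.cast_natAbs, Int.cast_abs]
  rw [h1]
  have h2 : w.1.valMinAbs.natAbs ≤ sn w := le_max_left _ _
  exact_mod_cast h2

/-- **(V2)**, moments of the first coordinate -/
theorem v2j (hb : 0 ≤ b) (hξ : 1 ≤ ξ) (hN : 2 * ξ ≤ N) (hc : 0 < c) (hC : 0 ≤ C)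
    (hy : 0 ≤ y) (hA : HA N b ξ hb y c C) {R : ℕ} (hR : (R : ℝ) * y ≤ c * ξ) (j : ℕ) :
    tsn R (H41.G b N (ξ : ℝ)) (fun w => |(w.1.valMinAbs : ℝ)| ^ j) ≤
      K3 c C j * (ξ : ℝ) ^ (2 + j) := by
  have hξ' : (0 : ℝ) < ξ := by exact_mod_cast hξ
  refine le_trans ?_ (v2s hb hξ hN hc hC hy hA hR j)
  unfold tsn
  refine sum_le_sum fun w _ => mul_le_mul_of_nonneg_right ?_ (H41.G_nonneg hb hξ' _)
  exact pow_le_pow_left₀ (abs_nonneg _) (vma_le_sn w) j

/-- the constant of the full fourth moment -/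
noncomputable def K4 (c C : ℝ) (p : ℕ) : ℝ :=
  K3 c C 4 + √C * (Real.exp (2 * c) * (((5 * p).factorial : ℝ) * (2 / c ^ 2) ^ (5 * p)))

/-- **(V3)**: full fourth moment on tori of polynomial size -/
theorem v3 (hb : 0 ≤ b) (hξ : 1 ≤ ξ) (hN : 2 * ξ ≤ N) (hc : 0 < c) (hC : 0 ≤ C)
    (hy : 0 < y) (hA : HA N b ξ hb y c C) (hyc : 3 * y ≤ c) (p : ℕ)
    (hp : (N : ℝ) * y ^ p ≤ ξ) :
    H764.M4 (H41.G b N (ξ : ℝ)) ≤ K4 c C p * (ξ : ℝ) ^ 6 := by
  classical
  have hξ' : (0 : ℝ) < ξ := by exact_mod_cast hξ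
  have hξ1 : (1 : ℝ) ≤ ξ := by exact_mod_cast hξ
  have hG := fun w => H41.G_nonneg (N := N) hb hξ' w
  set R : ℕ := ⌊c * ξ / y⌋₊ with hRd
  have hR1 : (R : ℝ) ≤ c * ξ / y := Nat.floor_le (by positivity)
  have hR2 : c * ξ / y < R + 1 := Nat.lt_floor_add_one _
  have hR : (R : ℝ) * y ≤ c * ξ := by rwa [le_div_iff₀ hy] at hR1
  have h3ξ : (3 : ℝ) * ξ ≤ c * ξ / y := by
    rw [le_div_iff₀ hy]
    nlinarith
  have hR3 : 2 * ξ ≤ R := by
    have h1 : (2 * ξ : ℝ) < R + 1 := by linarith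
    have h2 : 2 * ξ < R + 1 := by exact_mod_cast h1
    omega
  obtain ⟨m, hm⟩ := Nat.exists_eq_add_of_le (show ξ ≤ R by omega)
  have hmy : (m : ℝ) * y ≤ c * ξ := by
    refine le_trans (mul_le_mul_of_nonneg_right ?_ hy.le) hR
    have : m ≤ R := by omega
    exact_mod_cast this
  have h1 := v2j hb hξ hN hc hC hy.le hA hR 4
  have h2 := vt hb hξ hN hC hA hmy (by omega)
  have h3 : H764.M4 (H41.G b N (ξ : ℝ)) =
      tsn R (H41.G b N (ξ : ℝ)) (fun w => |(w.1.valMinAbs : ℝ)| ^ 4) +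
      ∑ w ∈ univ.filter (fun w : V N => ¬ sn w ≤ R), (w.1.valMinAbs : ℝ) ^ 4 *
        H41.G b N (ξ : ℝ) w := by
    unfold H764.M4 tsn
    rw [← sum_filter_add_sum_filter_not univ (fun w : V N => sn w ≤ R)]
    congr 1
    refine sum_congr rfl fun w _ => ?_
    have e4 : |(w.1.valMinAbs : ℝ)| ^ 4 = (w.1.valMinAbs : ℝ) ^ 4 := by
      rw [← abs_pow, abs_of_nonneg (by positivity)]
    simp only [e4]
  have h4 : ∑ w ∈ univ.filter (fun w : V N => ¬ sn w ≤ R), (w.1.valMinAbs : ℝ) ^ 4 *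
      H41.G b N (ξ : ℝ) w ≤
      (N : ℝ) ^ 4 * ∑ w ∈ univ.filter (fun w : V N => m + ξ < sn w), H41.G b N (ξ : ℝ) w := by
    rw [mul_sum]
    have e : univ.filter (fun w : V N => ¬ sn w ≤ R) =
        univ.filter (fun w : V N => m + ξ < sn w) := by
      refine filter_congr fun w _ => ?_
      omega
    rw [e]
    refine sum_le_sum fun w _ => mul_le_mul_of_nonneg_right ?_ (hG w)
    have h5 : |(w.1.valMinAbs : ℝ)| ≤ N := by
      have h6 : |(w.1.valMinAbs : ℝ)| = (w.1.valMinAbs.natAbs : ℝ) := by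
        rw [Nat.cast_natAbs, Int.cast_abs]
      rw [h6]
      have h7 := ZMod.natAbs_valMinAbs_le w.1
      have h8 : w.1.valMinAbs.natAbs ≤ N := h7.trans (Nat.div_le_self _ _)
      exact_mod_cast h8
    have e4 : (w.1.valMinAbs : ℝ) ^ 4 = |(w.1.valMinAbs : ℝ)| ^ 4 := by
      rw [← abs_pow, abs_of_nonneg (by positivity)]
    rw [e4]
    exact pow_le_pow_left₀ (abs_nonneg _) h5 4
  have h5 : Real.exp (-(c * m / (2 * ξ))) ≤ Real.exp (2 * c) * Real.exp (-(c ^ 2 / (2 * y))) := by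
    rw [← Real.exp_add]
    refine Real.exp_le_exp.2 ?_
    have h6 : (m : ℝ) = R - ξ := by
      rw [hm]
      push_cast
      ring
    have h7 : c * ξ / y - 1 - ξ ≤ m := by rw [h6]; linarith
    have h8 : c ^ 2 / (2 * y) - 2 * c ≤ c * m / (2 * ξ) := by
      rw [le_div_iff₀ (by positivity)]
      have h9 : (c ^ 2 / (2 * y) - 2 * c) * (2 * ξ) = c * (c * ξ / y) - 4 * (c * ξ) := by
        field_simp
        ring
      rw [h9]
      have h10 := mul_le_mul_of_nonneg_left h7 hc.le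
      nlinarith
    linarith
  have h6 : (N : ℝ) ^ 5 * Real.exp (-(c ^ 2 / (2 * y))) ≤
      (((5 * p).factorial : ℝ) * (2 / c ^ 2) ^ (5 * p)) * (ξ : ℝ) ^ 5 := by
    have hf : (0 : ℝ) < ((5 * p).factorial : ℝ) := by exact_mod_cast (5 * p).factorial_pos
    have h7 := Real.pow_div_factorial_le_exp (c ^ 2 / (2 * y)) (by positivity) (5 * p)
    rw [div_le_iff₀ hf] at h7
    rw [Real.exp_neg, ← div_eq_mul_inv, div_le_iff₀ (Real.exp_pos _)]
    have h8 : (N : ℝ) ≤ ξ / y ^ p := by rwa [le_div_iff₀ (by positivity)]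
    have h9 : (N : ℝ) ^ 5 ≤ (ξ / y ^ p) ^ 5 := pow_le_pow_left₀ (Nat.cast_nonneg _) h8 5
    refine h9.trans ?_
    have h10 : (ξ / y ^ p) ^ 5 = (ξ : ℝ) ^ 5 * (2 / c ^ 2) ^ (5 * p) *
        (c ^ 2 / (2 * y)) ^ (5 * p) := by
      rw [div_pow, ← pow_mul, mul_assoc, ← mul_pow, mul_comm p 5]
      have : 2 / c ^ 2 * (c ^ 2 / (2 * y)) = 1 / y := by field_simp
      rw [this, one_div, inv_pow]
      rfl
    rw [h10]
    calc (ξ : ℝ) ^ 5 * (2 / c ^ 2) ^ (5 * p) * (c ^ 2 / (2 * y)) ^ (5 * p)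
        ≤ (ξ : ℝ) ^ 5 * (2 / c ^ 2) ^ (5 * p) *
          (Real.exp (c ^ 2 / (2 * y)) * ((5 * p).factorial : ℝ)) :=
          mul_le_mul_of_nonneg_left h7 (by positivity)
      _ = _ := by ring
  rw [h3]
  have hsC := Real.sqrt_nonneg C
  have h7 : (N : ℝ) ^ 4 * ∑ w ∈ univ.filter (fun w : V N => m + ξ < sn w),
      H41.G b N (ξ : ℝ) w ≤ √C * (Real.exp (2 * c) * (((5 * p).factorial : ℝ) *
        (2 / c ^ 2) ^ (5 * p))) * (ξ : ℝ) ^ 6 := by
    calc (N : ℝ) ^ 4 * ∑ w ∈ univ.filter (fun w : V N => m + ξ < sn w),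
          H41.G b N (ξ : ℝ) w ≤
          (N : ℝ) ^ 4 * (√C * ξ * N * Real.exp (-(c * m / (2 * ξ)))) :=
          mul_le_mul_of_nonneg_left h2 (by positivity)
      _ ≤ (N : ℝ) ^ 4 * (√C * ξ * N * (Real.exp (2 * c) * Real.exp (-(c ^ 2 / (2 * y))))) := by
          gcongr
      _ = √C * Real.exp (2 * c) * ξ * ((N : ℝ) ^ 5 * Real.exp (-(c ^ 2 / (2 * y)))) := by ring
      _ ≤ √C * Real.exp (2 * c) * ξ * ((((5 * p).factorial : ℝ) * (2 / c ^ 2) ^ (5 * p)) *
          (ξ : ℝ) ^ 5) := by gcongr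
      _ = _ := by ring
  have h8 : K4 c C p * (ξ : ℝ) ^ 6 = K3 c C 4 * (ξ : ℝ) ^ (2 + 4) +
      √C * (Real.exp (2 * c) * (((5 * p).factorial : ℝ) * (2 / c ^ 2) ^ (5 * p))) *
        (ξ : ℝ) ^ 6 := by
    unfold K4
    ring
  rw [h8]
  exact add_le_add h1 (h4.trans h7)

end Vale.Agent.P159.TM.H265
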