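import Vale.Agent.P159.TM.H22.Dup
import Vale.Agent.P159.T1.H897.Fkg

/-!
Parity classes: log-concavity of the path kernel on a parity class, the sign of the mean of a
symmetric weight on a class with one prescribed value, sums over pairs of heights of one class.
-/

open MeasureTheory Filter Topology Finset

namespace Vale.Agent.P159.TM.H265

open Vale.Agent.P159 Vale.Agent.P159.H353 Vale.Agent.P159.R2.H254 Vale.Agent.P159.T1.H934
  Vale.Agent.P159.T1.H897

/-- binomial coefficients -/
def row : ℕ → ℤ → ℝ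
  | 0, r => if r = 0 then 1 else 0
  | k + 1, r => row k (r - 1) + row k r

lemma row_nonneg (k : ℕ) (r : ℤ) : 0 ≤ row k r := by
  induction k generalizing r with
  | zero => simp only [row]; split_ifs <;> norm_num
  | succ k ih => simp only [row]; exact add_nonneg (ih _) (ih _)

lemma logC_row (k : ℕ) : LogC (row k) := by
  induction k with
  | zero =>
    intro a b c d h1 h2 h3
    simp only [row]
    by_cases ha : a = 0
    · by_cases hd : d = 0
      · have hb : b = 0 := by omega
        have hc : c = 0 := by omega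
        simp [ha, hb, hc, hd]
      · simp only [hd, if_false, mul_zero]
        split_ifs <;> norm_num
    · simp only [ha, if_false, zero_mul]
      split_ifs <;> norm_num
  | succ k ih =>
    intro a b c d h1 h2 h3
    simp only [row]
    have n := row_nonneg k
    by_cases hac : a = c
    · have hbd : b = d := by omega
      subst hac hbd
      nlinarith
    · have e1 := ih (a - 1) (b - 1) (c - 1) (d - 1) (by omega) (by omega) (by omega)
      have e2 := ih a b c d h1 h2 h3
      have e3 := ih (a - 1) (b - 1) c d (by omega) (by omega) (by omega)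
      have e4 := ih a b (c - 1) (d - 1) (by omega) (by omega) (by omega)
      nlinarith

lemma phi_row (k : ℕ) (r : ℤ) : phi 0 k (2 * r - k) = row k r := by
  induction k generalizing r with
  | zero =>
    simp only [phi, psi, row]
    by_cases h : r = 0
    · simp [h]
    · rw [if_neg, if_neg h]
      push_cast
      omega
  | succ k ih =>
    simp only [phi, row]
    rw [← ih (r - 1), ← ih r]
    congr 2 <;> push_cast <;> ring

lemma phi_odd (k : ℕ) (p : ℤ) (h : ¬ (2 : ℤ) ∣ p + k) : phi 0 k p = 0 := by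
  induction k generalizing p with
  | zero =>
    simp only [phi, psi]
    rw [if_neg]
    rintro rfl
    exact h (by simp)
  | succ k ih =>
    simp only [phi]
    rw [ih (p - 1) (by push_cast at h; omega), ih (p + 1) (by push_cast at h; omega), add_zero]

lemma phi_nonneg (k : ℕ) (p : ℤ) : 0 ≤ phi 0 k p := by
  induction k generalizing p with
  | zero => simp only [phi, psi]; split_ifs <;> norm_num
  | succ k ih => simp only [phi]; exact add_nonneg (ih _) (ih _)

/-- log-concavity on a parity class -/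
lemma phi_logC (k : ℕ) {a b c d : ℤ} (h1 : a + d = b + c) (h2 : a ≤ b) (h3 : a ≤ c)
    (h4 : (2 : ℤ) ∣ b - a) (h5 : (2 : ℤ) ∣ c - a) :
    phi 0 k a * phi 0 k d ≤ phi 0 k b * phi 0 k c := by
  by_cases h : (2 : ℤ) ∣ a + k
  · obtain ⟨r, hr⟩ := h
    obtain ⟨i, hi⟩ := h4
    obtain ⟨j, hj⟩ := h5
    have ea : a = 2 * r - k := by omega
    have eb : b = 2 * (r + i) - k := by omega
    have ec : c = 2 * (r + j) - k := by omega
    have ed : d = 2 * (r + i + j) - k := by omega
    rw [ea, eb, ec, ed, phi_row, phi_row, phi_row, phi_row]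
    exact logC_row k _ _ _ _ (by omega) (by omega) (by omega)
  · rw [phi_odd k a h, zero_mul]
    exact mul_nonneg (phi_nonneg _ _) (phi_nonneg _ _)

section lattice

variable {V : Type}

/-- the lattice condition on parity classes -/
def CHol (φ : (V → ℤ) → ℝ) : Prop :=
  ∀ x y : V → ℤ, (∀ v, (2 : ℤ) ∣ x v - y v) → φ x * φ y ≤ φ (x ⊓ y) * φ (x ⊔ y)

lemma CHol.mul {φ ψ : (V → ℤ) → ℝ} (h : CHol φ) (h' : CHol ψ) (h0 : ∀ x, 0 ≤ φ x)
    (h0' : ∀ x, 0 ≤ ψ x) : CHol fun x => φ x * ψ x := by
  intro x y hxy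
  have := mul_le_mul (h x y hxy) (h' x y hxy) (mul_nonneg (h0' _) (h0' _))
    (mul_nonneg (h0 _) (h0 _))
  calc φ x * ψ x * (φ y * ψ y) = φ x * φ y * (ψ x * ψ y) := by ring
    _ ≤ φ (x ⊓ y) * φ (x ⊔ y) * (ψ (x ⊓ y) * ψ (x ⊔ y)) := this
    _ = _ := by ring

lemma CHol.prod {ι : Type*} {s : Finset ι} {φ : ι → (V → ℤ) → ℝ} (h : ∀ i ∈ s, CHol (φ i))
    (h0 : ∀ i ∈ s, ∀ x, 0 ≤ φ i x) : CHol fun x => ∏ i ∈ s, φ i x := by
  intro x y hxy
  simp only
  rw [← Finset.prod_mul_distrib, ← Finset.prod_mul_distrib]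
  exact Finset.prod_le_prod (fun i hi => mul_nonneg (h0 i hi _) (h0 i hi _))
    fun i hi => h i hi x y hxy

/-- one edge -/
lemma chol_edge (k : ℕ) (a b : V) : CHol fun h : V → ℤ => phi 0 k (h b - h a) := by
  intro x y hxy
  have pa := hxy a
  have pb := hxy b
  simp only [Pi.inf_apply, Pi.sup_apply]
  rcases le_total (x a) (y a) with ha | ha <;> rcases le_total (x b) (y b) with hb | hb
  · rw [inf_eq_left.2 ha, inf_eq_left.2 hb, sup_eq_right.2 ha, sup_eq_right.2 hb]
  · rw [inf_eq_left.2 ha, inf_eq_right.2 hb, sup_eq_right.2 ha, sup_eq_left.2 hb]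
    have := phi_logC k (a := y b - y a) (b := y b - x a) (c := x b - y a) (d := x b - x a)
      (by ring) (by omega) (by omega) (by omega) (by omega)
    linarith
  · rw [inf_eq_right.2 ha, inf_eq_left.2 hb, sup_eq_left.2 ha, sup_eq_right.2 hb]
    exact phi_logC k (a := x b - x a) (b := x b - y a) (c := y b - x a) (d := y b - y a)
      (by ring) (by omega) (by omega) (by omega) (by omega)
  · rw [inf_eq_right.2 ha, inf_eq_right.2 hb, sup_eq_left.2 ha, sup_eq_left.2 hb]
    exact le_of_eq (mul_comm _ _)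

/-- a product over the sites -/
lemma chol_site (α : ℤ → ℝ) (v : V) : CHol fun h : V → ℤ => α (h v) := by
  intro x y _
  simp only [Pi.inf_apply, Pi.sup_apply]
  rcases le_total (x v) (y v) with h | h
  · rw [inf_eq_left.2 h, sup_eq_right.2 h]
  · rw [inf_eq_right.2 h, sup_eq_left.2 h, mul_comm]

/-- class of a height function: the parities and the value at `p` -/
def cls (p : V) (s : V → ℤ) : (V → ZMod 2) × ℤ := (fun v => (s v : ZMod 2), s p)

lemma cls_eq {p : V} {s : V → ℤ} {c : (V → ZMod 2) × ℤ} :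
    cls p s = c ↔ (∀ v, (s v : ZMod 2) = c.1 v) ∧ s p = c.2 := by
  constructor
  · rintro rfl
    exact ⟨fun v => rfl, rfl⟩
  · rintro ⟨h1, h2⟩
    exact Prod.ext (funext h1) h2

lemma zmod2_eq {a b : ℤ} (h : (a : ZMod 2) = b) : (2 : ℤ) ∣ a - b := by
  have := (ZMod.intCast_eq_intCast_iff_dvd_sub b a 2).1 h.symm
  simpa using this

lemma zmod2_neg (a : ℤ) : ((-a : ℤ) : ZMod 2) = a := by
  push_cast
  have : ∀ x : ZMod 2, -x = x := by decide
  exact this _

open Classical in
/-- the sum over a class -/
noncomputable def cs (p : V) (F : (V → ℤ) → ℝ) (c : (V → ZMod 2) × ℤ) : ℝ :=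
  ∑' s : V → ℤ, if cls p s = c then F s else 0

open Classical in
lemma cs_neg (p : V) {F : (V → ℤ) → ℝ} (c : (V → ZMod 2) × ℤ) (hF : ∀ s, F (-s) = -F s) :
    cs p F (c.1, -c.2) = -cs p F c := by
  unfold cs
  rw [← tsum_neg, ← (Equiv.neg (V → ℤ)).tsum_eq]
  refine tsum_congr fun s => ?_
  simp only [Equiv.neg_apply]
  have e : cls p (-s) = (c.1, -c.2) ↔ cls p s = c := by
    rw [cls_eq, cls_eq]
    simp only [Pi.neg_apply, neg_inj]
    refine and_congr (forall_congr' fun v => ?_) Iff.rfl
    rw [zmod2_neg]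
  by_cases h : cls p s = c
  · rw [if_pos h, if_pos (e.2 h), hF]
  · rw [if_neg h, if_neg (fun h' => h (e.1 h')), neg_zero]

open Classical in
/-- the mean has the sign of the prescribed value -/
theorem cs_nonneg {φ : (V → ℤ) → ℝ} (φ0 : ∀ s, 0 ≤ φ s) (φe : ∀ s, φ (-s) = φ s) (hc : CHol φ)
    (hs : Summable φ) {u : V} (hu : Summable fun s => |φ s * (s u : ℝ)|) (p : V)
    (c : (V → ZMod 2) × ℤ) (h : 0 ≤ c.2) : 0 ≤ cs p (fun s => φ s * (s u : ℝ)) c := by
  set μ : (V → ℤ) → ℝ := fun s => if cls p s = (c.1, -c.2) then φ s else 0 with hμ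
  set ν : (V → ℤ) → ℝ := fun s => if cls p s = c then φ s else 0 with hν
  have m0 : ∀ s, 0 ≤ μ s := fun s => by simp only [hμ]; split_ifs; exacts [φ0 s, le_rfl]
  have n0 : ∀ s, 0 ≤ ν s := fun s => by simp only [hν]; split_ifs; exacts [φ0 s, le_rfl]
  have ml : ∀ s, μ s ≤ φ s := fun s => by simp only [hμ]; split_ifs; exacts [le_rfl, φ0 s]
  have nl : ∀ s, ν s ≤ φ s := fun s => by simp only [hν]; split_ifs; exacts [le_rfl, φ0 s]
  have sm : Summable μ := Summable.of_nonneg_of_le m0 ml hs
  have sn : Summable ν := Summable.of_nonneg_of_le n0 nl hs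
  have b1 : ∀ (ρ : (V → ℤ) → ℝ), (∀ s, 0 ≤ ρ s) → (∀ s, ρ s ≤ φ s) →
      Summable fun s => ρ s * (s u : ℝ) := by
    intro ρ h0 h1
    refine Summable.of_norm_bounded hu fun s => ?_
    rw [Real.norm_eq_abs, abs_mul, abs_mul, abs_of_nonneg (h0 s), abs_of_nonneg (φ0 s)]
    exact mul_le_mul_of_nonneg_right (h1 s) (abs_nonneg _)
  have hH : Hol μ ν := by
    intro x y
    simp only [hμ, hν]
    by_cases hx : cls p x = (c.1, -c.2)
    · by_cases hy : cls p y = c
      · have hx' := cls_eq.1 hx
        have hy' := cls_eq.1 hy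
        simp only at hx' hy'
        have hp : x p ≤ y p := by rw [hx'.2, hy'.2]; linarith
        have e1 : cls p (x ⊓ y) = (c.1, -c.2) := by
          rw [cls_eq]
          refine ⟨fun v => ?_, ?_⟩
          · rw [Pi.inf_apply]
            rcases le_total (x v) (y v) with h | h
            · rw [inf_eq_left.2 h]; exact hx'.1 v
            · rw [inf_eq_right.2 h]; exact hy'.1 v
          · rw [Pi.inf_apply, inf_eq_left.2 hp]; exact hx'.2
        have e2 : cls p (x ⊔ y) = c := by
          rw [cls_eq]
          refine ⟨fun v => ?_, ?_⟩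
          · rw [Pi.sup_apply]
            rcases le_total (x v) (y v) with h | h
            · rw [sup_eq_right.2 h]; exact hy'.1 v
            · rw [sup_eq_left.2 h]; exact hx'.1 v
          · rw [Pi.sup_apply, sup_eq_right.2 hp]; exact hy'.2
        rw [if_pos hx, if_pos hy, if_pos e1, if_pos e2]
        exact hc x y fun v => zmod2_eq ((hx'.1 v).trans (hy'.1 v).symm)
      · rw [if_neg hy, mul_zero]
        exact mul_nonneg (m0 _) (n0 _)
    · rw [if_neg hx, zero_mul]
      exact mul_nonneg (m0 _) (n0 _)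
  have hf : Monotone fun s : V → ℤ => (s u : ℝ) := fun s t hst => by
    have := hst u
    show ((s u : ℤ) : ℝ) ≤ ((t u : ℤ) : ℝ)
    exact_mod_cast this
  have key := holley_tsum m0 n0 sm sn (b1 μ m0 ml) (b1 ν n0 nl) hH hf
  have e1 : ∑' s, μ s = ∑' s, ν s := by
    rw [← (Equiv.neg (V → ℤ)).tsum_eq]
    refine tsum_congr fun s => ?_
    simp only [Equiv.neg_apply, hμ, hν]
    have e : cls p (-s) = (c.1, -c.2) ↔ cls p s = c := by
      rw [cls_eq, cls_eq]
      simp only [Pi.neg_apply, neg_inj]
      refine and_congr (forall_congr' fun v => ?_) Iff.rfl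
      rw [zmod2_neg]
    by_cases h : cls p s = c
    · rw [if_pos h, if_pos (e.2 h), φe]
    · rw [if_neg h, if_neg (fun h' => h (e.1 h'))]
  have e2 : ∑' s, μ s * (s u : ℝ) = -cs p (fun s => φ s * (s u : ℝ)) c := by
    rw [← cs_neg p c (fun s => by rw [φe, Pi.neg_apply]; push_cast; ring)]
    unfold cs
    refine tsum_congr fun s => ?_
    simp only [hμ]
    split_ifs <;> simp
  have e3 : ∑' s, ν s * (s u : ℝ) = cs p (fun s => φ s * (s u : ℝ)) c := by
    unfold cs
    refine tsum_congr fun s => ?_
    simp only [hν]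
    split_ifs <;> simp
  rw [e1, e2, e3] at key
  set S := ∑' s, ν s with hS
  set T := cs p (fun s => φ s * (s u : ℝ)) c with hT
  have S0 : 0 ≤ S := tsum_nonneg n0
  rcases S0.eq_or_lt with hz | hp
  · have hall : ∀ s, ν s = 0 := fun s => by
      have := sn.le_tsum s fun t _ => n0 t
      rw [← hS, ← hz] at this
      exact le_antisymm this (n0 s)
    rw [← e3]
    simp [hall]
  · by_contra hneg
    rw [not_le] at hneg
    nlinarith

/-- the sign for all classes -/
theorem cs_sign {φ : (V → ℤ) → ℝ} (φ0 : ∀ s, 0 ≤ φ s) (φe : ∀ s, φ (-s) = φ s) (hc : CHol φ)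
    (hs : Summable φ) {u z : V} (hu : Summable fun s => |φ s * (s u : ℝ)|)
    (hz : Summable fun s => |φ s * (s z : ℝ)|) (p : V) (c : (V → ZMod 2) × ℤ) :
    0 ≤ cs p (fun s => φ s * (s u : ℝ)) c * cs p (fun s => φ s * (s z : ℝ)) c := by
  rcases le_total 0 c.2 with h | h
  · exact mul_nonneg (cs_nonneg φ0 φe hc hs hu p c h) (cs_nonneg φ0 φe hc hs hz p c h)
  · have h1 := cs_nonneg φ0 φe hc hs hu p (c.1, -c.2) (by simpa using h)
    have h2 := cs_nonneg φ0 φe hc hs hz p (c.1, -c.2) (by simpa using h)
    rw [cs_neg p c (fun s => by rw [φe, Pi.neg_apply]; push_cast; ring)] at h1 h2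
    nlinarith

end lattice

section pairs

variable {V : Type}

lemma two_inj : ∀ h : V → ℤ, h + h = 0 → h = 0 := by
  intro h hh
  funext v
  have := congrFun hh v
  simp only [Pi.add_apply, Pi.zero_apply] at this ⊢
  omega

open Classical in
/-- sum over the pairs of heights whose sum and difference agree at `p` -/
theorem pair_sum {f g : (V → ℤ) → ℝ} (hf : Summable fun s => |f s|) (hg : Summable fun s => |g s|)
    (p : V) :
    HasSum (fun c => cs p f c * cs p g c) (∑' x : (V → ℤ) × (V → ℤ),
      f (x.1 + x.2) * g (x.1 - x.2) * (if x.2 p = 0 then 1 else 0)) := by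
  set G : (V → ℤ) × (V → ℤ) → ℝ := fun y => if cls p y.1 = cls p y.2 then f y.1 * g y.2 else 0
    with hG
  have hfg : Summable fun x : (V → ℤ) × (V → ℤ) => |f x.1| * |g x.2| :=
    hf.mul_of_nonneg hg (fun _ => abs_nonneg _) (fun _ => abs_nonneg _)
  have hGs : Summable G := by
    refine Summable.of_norm_bounded hfg fun x => ?_
    simp only [hG]
    split_ifs
    · rw [Real.norm_eq_abs, abs_mul]
    · rw [norm_zero]; positivity
  have e1 : ∑' x : (V → ℤ) × (V → ℤ),
      f (x.1 + x.2) * g (x.1 - x.2) * (if x.2 p = 0 then 1 else 0) = ∑' y, G y := by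
    rw [← (rot_inj (H := V → ℤ) two_inj).tsum_eq (f := G)]
    · refine tsum_congr fun x => ?_
      simp only [hG, rot]
      have hpar : ∀ v, (((x.1 + x.2) v : ℤ) : ZMod 2) = ((x.1 - x.2) v : ℤ) := by
        intro v
        rw [Pi.add_apply, Pi.sub_apply]
        push_cast
        have : ∀ a b : ZMod 2, a + b = a - b := by decide
        exact this _ _
      by_cases hp : x.2 p = 0
      · rw [if_pos hp, mul_one, if_pos]
        rw [cls_eq]
        refine ⟨hpar, ?_⟩
        simp only [cls, Pi.add_apply, Pi.sub_apply, hp]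
        ring
      · rw [if_neg hp, mul_zero, if_neg]
        intro h
        have := (cls_eq.1 h).2
        simp only [cls, Pi.add_apply, Pi.sub_apply] at this
        omega
    · intro y hy
      have h3 : cls p y.1 = cls p y.2 := by
        by_contra hne
        exact hy (by simp only [hG]; rw [if_neg hne])
      have h4 : ∀ v, (2 : ℤ) ∣ y.1 v - y.2 v := fun v => zmod2_eq ((cls_eq.1 h3).1 v)
      choose a ha using h4
      refine ⟨(y.2 + a, a), ?_⟩
      simp only [rot]
      ext v
      · simp only [Pi.add_apply]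
        have := ha v
        omega
      · simp
  rw [e1]
  have h5 := hGs.hasSum.tsum_fiberwise fun y => cls p y.1
  have e2 : ∀ c : (V → ZMod 2) × ℤ,
      ∑' b : ((fun y : (V → ℤ) × (V → ℤ) => cls p y.1) ⁻¹' {c} : Set _), G b =
        cs p f c * cs p g c := by
    intro c
    have hf' : Summable fun s => (if cls p s = c then f s else 0) := by
      refine Summable.of_norm_bounded hf fun s => ?_
      split_ifs
      · exact le_rfl
      · rw [norm_zero]; positivity
    have hg' : Summable fun s => (if cls p s = c then g s else 0) := by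
      refine Summable.of_norm_bounded hg fun s => ?_
      split_ifs
      · exact le_rfl
      · rw [norm_zero]; positivity
    have hfg' : Summable fun x : (V → ℤ) × (V → ℤ) =>
        (if cls p x.1 = c then f x.1 else 0) * (if cls p x.2 = c then g x.2 else 0) := by
      refine Summable.of_norm_bounded hfg fun x => ?_
      rw [norm_mul]
      refine mul_le_mul ?_ ?_ (norm_nonneg _) (abs_nonneg _)
      · split_ifs
        · exact le_rfl
        · rw [norm_zero]; positivity
      · split_ifs
        · exact le_rfl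
        · rw [norm_zero]; positivity
    unfold cs
    rw [hf'.tsum_mul_tsum hg' hfg', tsum_subtype (((fun y : (V → ℤ) × (V → ℤ) => cls p y.1) ⁻¹' {c}))
      G]
    refine tsum_congr fun y => ?_
    by_cases h1 : cls p y.1 = c
    · rw [Set.indicator_of_mem (by simpa using h1), if_pos h1]
      simp only [hG]
      by_cases h2 : cls p y.2 = c
      · rw [if_pos h2, if_pos (h1.trans h2.symm)]
      · rw [if_neg h2, mul_zero, if_neg]
        intro h3
        exact h2 (h3.symm.trans h1)
    · rw [Set.indicator_of_notMem (by simpa using h1), if_neg h1, zero_mul]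
  simp only [e2] at h5
  exact h5

end pairs

end Vale.Agent.P159.TM.H265
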