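import Vale.Agent.P159.TM.H265.TransQ

/-!
P159, row A5I: **`Trans0Q` for the literal one-scale predicate from Theorem A (1).**
-/

open Finset

set_option linter.unusedSectionVars false

namespace Vale.Agent.P159.TM.H265

open Vale.Agent.P159.TM.Spec Vale.Agent.P159.TM.H459
open Vale.Agent.P159.TM.H705 (CN AB bx b0 dB pt tsn outB)

variable {N : ℕ} [NeZero N] {b : ℝ} {ξ : ℕ} {y c C : ℝ}

/-- constant of the loss in the box -/
noncomputable def D3 (c C : ℝ) : ℝ := √C * Real.exp c * (384 / c ^ 3)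

theorem D3_nonneg (hc : 0 < c) : 0 ≤ D3 c C := by
  unfold D3
  have := Real.sqrt_nonneg C
  positivity

theorem err0_le (hc : 0 < c) {K : ℕ} (hK : 1 ≤ K) (hKy : 1 / (K : ℝ) ^ 2 ≤ y) :
    √C * K * Real.exp c * Real.exp (-(c * K / 4)) ≤ D3 c C * y := by
  have hsC := Real.sqrt_nonneg C
  have hK0 : (0 : ℝ) < K := by exact_mod_cast hK
  have h1 := Real.pow_div_factorial_le_exp (c * K / 4) (by positivity) 3
  have hf : ((Nat.factorial 3 : ℕ) : ℝ) = 6 := by norm_num [Nat.factorial]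
  rw [hf, div_le_iff₀ (by norm_num)] at h1
  have h2 : (K : ℝ) * Real.exp (-(c * K / 4)) ≤ 384 / c ^ 3 * (1 / (K : ℝ) ^ 2) := by
    rw [Real.exp_neg, ← div_eq_mul_inv, div_le_iff₀ (Real.exp_pos _)]
    have h3 : (K : ℝ) = 64 / c ^ 3 * (1 / (K : ℝ) ^ 2) * (c * K / 4) ^ 3 := by
      field_simp
      ring
    calc (K : ℝ) = 64 / c ^ 3 * (1 / (K : ℝ) ^ 2) * (c * K / 4) ^ 3 := h3
      _ ≤ 64 / c ^ 3 * (1 / (K : ℝ) ^ 2) * (Real.exp (c * K / 4) * 6) :=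
          mul_le_mul_of_nonneg_left h1 (by positivity)
      _ = _ := by ring
  calc √C * K * Real.exp c * Real.exp (-(c * K / 4))
      = √C * Real.exp c * ((K : ℝ) * Real.exp (-(c * K / 4))) := by ring
    _ ≤ √C * Real.exp c * (384 / c ^ 3 * (1 / (K : ℝ) ^ 2)) :=
        mul_le_mul_of_nonneg_left h2 (by positivity)
    _ ≤ √C * Real.exp c * (384 / c ^ 3 * y) := by gcongr
    _ = _ := by unfold D3; ring

/-- the first transfer -/
theorem core0 {N' : ℕ} [NeZero N'] (hb : 0 ≤ b) (hξ : 1 ≤ ξ) (hc : 0 < c) (hC : 0 ≤ C)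
    (hy : 0 < y) (hA : HA N b ξ hb y c C) {K n : ℕ} (hK : 8 ≤ K) (hKn : K ≤ n)
    (hN : N = n * ξ) (hN' : N' = K * ξ) (hKy : (K : ℝ) * y ≤ 2 * c)
    (hKy2 : 1 / (K : ℝ) ^ 2 ≤ y) {α W : ℝ} (hα : 0 ≤ α)
    (hQ : H764.Hyp 6 W (ξ : ℝ) (H41.G b N (ξ : ℝ)) y α) :
    ∃ e : ℝ, y ≤ e ∧ e ≤ (1 + D3 c C + 34 * (2 + 80 * α)) * y ∧
      H764.QU (ξ : ℝ) (H41.G b N' (ξ : ℝ)) (3 * e) (α + (1 + K3 c C 4) * (√y + 40 * y)) ∧
      ((2 * e + 4 * Real.pi * K3 c C 1 * (1 / K)) * (1 + 2 * W ^ 2) ≤ 1 / 6 - 1 / 7 →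
        H764.H2 7 W (ξ : ℝ) (H41.G b N' (ξ : ℝ))) := by
  have hξ' : (0 : ℝ) < ξ := by exact_mod_cast hξ
  have hK0 : (0 : ℝ) < K := by
    have : 0 < K := by omega
    exact_mod_cast this
  have hsC := Real.sqrt_nonneg C
  have h8 : 8 * ξ ≤ K * ξ := Nat.mul_le_mul_right ξ hK
  have hKN : K * ξ ≤ N := by rw [hN]; exact Nat.mul_le_mul_right ξ hKn
  have hKN' : K * ξ ≤ N' := hN'.ge
  have hNr : (N : ℝ) = n * ξ := by rw [hN]; push_cast; ring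
  have hn0 : (0 : ℝ) < n := lt_of_lt_of_le hK0 (by exact_mod_cast hKn)
  have hG := fun w => H41.G_nonneg (N := N) hb hξ' w
  have herr := err0_le (C := C) hc (by omega : 1 ≤ K) hKy2
  set e1 := √C * K * Real.exp c * Real.exp (-(c * K / 4)) with he1
  set e2 := 2 * (2 + 80 * α) * (y + 16 / (K : ℝ) ^ 2) with he2
  have he1' : 0 ≤ e1 := by positivity
  have he2' : 0 ≤ e2 := by positivity
  have he2'' : e2 ≤ 34 * (2 + 80 * α) * y := by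
    rw [he2]
    have h1 : 16 / (K : ℝ) ^ 2 ≤ 16 * y := by
      have : 16 / (K : ℝ) ^ 2 = 16 * (1 / (K : ℝ) ^ 2) := by ring
      linarith
    have h2 : 0 ≤ 2 * (2 + 80 * α) := by positivity
    have h3 := mul_le_mul_of_nonneg_left (by linarith : y + 16 / (K : ℝ) ^ 2 ≤ 17 * y) h2
    linarith
  have hR : ((K * ξ / 4 : ℕ) : ℝ) * y ≤ c * ξ := by
    have h1 : ((K * ξ / 4 : ℕ) : ℝ) ≤ K * ξ / 4 := by
      have : ((K * ξ / 4 : ℕ) : ℝ) ≤ ((K * ξ : ℕ) : ℝ) / 4 := Nat.cast_div_le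
      push_cast at this
      exact this
    have h2 := mul_le_mul_of_nonneg_right h1 hy.le
    nlinarith
  have hv1 := v1 hb hξ hc.le hC hy.le hA hK hKN hKy
  have hv2 := H705.far_tail (by omega : 1 ≤ K) hξ hG (H41.G_swap b _) hy.le hα hQ.qu.qk
    (sum_G_le hb hξ)
  have h2 : 2 * ξ ≤ N := by omega
  have hm1 := v2j hb hξ h2 hc hC hy.le hA hR 1
  have hm4 := v2j hb hξ h2 hc hC hy.le hA hR 4
  have hm4' : tsn (K * ξ / 4) (H41.G b N (ξ : ℝ)) (fun w => (w.1.valMinAbs : ℝ) ^ 4) ≤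
      K3 c C 4 * (ξ : ℝ) ^ 6 := by
    refine le_trans (le_of_eq ?_) hm4
    unfold tsn
    refine sum_congr rfl fun w _ => ?_
    have e4 : |(w.1.valMinAbs : ℝ)| ^ 4 = (w.1.valMinAbs : ℝ) ^ 4 := by
      rw [← abs_pow, abs_of_nonneg (by positivity)]
    simp only [e4]
  have hm1' : tsn (K * ξ / 4) (H41.G b N (ξ : ℝ)) (fun w => |(w.1.valMinAbs : ℝ)|) ≤
      K3 c C 1 * (ξ : ℝ) ^ 3 := by
    refine le_trans (le_of_eq ?_) hm1
    simp only [pow_one]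
  have h0 : H764.Gh (H41.G b N (ξ : ℝ)) 0 ≤ (ξ : ℝ) ^ 2 := H41.Gh_le hb hξ' 0
  have hch := H705.chord_trunc (r := K * ξ / 4) hξ' (by omega : 1 ≤ n) hNr hG h0 hQ.qu.qk hy hα
    hm4'
  have hm2 : tsn (K * ξ / 4) (H41.G b N (ξ : ℝ)) (fun w => (w.1.valMinAbs : ℝ) ^ 2) ≤
      2 * (α + (1 + K3 c C 4) * (√y + 40 * y)) * (ξ : ℝ) ^ 4 := by
    refine hch.trans ?_
    have h3 : (40 : ℝ) / (n : ℝ) ^ 2 ≤ 40 * y := by
      have h5 : (K : ℝ) ≤ n := by exact_mod_cast hKn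
      have h6 : (40 : ℝ) / (n : ℝ) ^ 2 ≤ 40 / (K : ℝ) ^ 2 := by gcongr
      have h7 : 40 / (K : ℝ) ^ 2 = 40 * (1 / (K : ℝ) ^ 2) := by ring
      linarith
    have h4 := K3_pos (C := C) hc 4
    gcongr
  have h3 : (1 - y) * (ξ : ℝ) ^ 2 ≤ ∑ w, H41.G b N (ξ : ℝ) w := by
    have := hQ.qu.qk 0
    rw [H764.EE_zero, mul_zero, sub_zero, H705.Gh_zero] at this
    exact this
  obtain ⟨-, t2, t3⟩ := H705.trans_model (M := N') hK hξ hKN hKN' hb hv1 hv2 h3 hm2 hm1'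
  have hsum : y + e1 + e2 ≤ (1 + D3 c C + 34 * (2 + 80 * α)) * y := by
    have h9 : (1 + D3 c C + 34 * (2 + 80 * α)) * y = y + D3 c C * y + 34 * (2 + 80 * α) * y := by
      ring
    rw [h9]
    exact add_le_add (add_le_add le_rfl herr) he2''
  rw [← he1, ← he2] at t2
  simp only [← he1, ← he2] at t3
  clear_value e1 e2
  clear hv1 hv2 hm1 hm4 hm4' hm1' hch hm2 h3
  refine ⟨y + e1 + e2, by linarith, hsum, t2, fun hh => ?_⟩
  refine t3 6 7 W (by norm_num) (by norm_num) hQ.h2 (le_trans ?_ hh)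
  have h5 : (ξ : ℝ) / N ≤ 1 / K := by
    rw [hNr, div_le_div_iff₀ (by positivity) hK0, one_mul, mul_comm]
    exact mul_le_mul_of_nonneg_right (by exact_mod_cast hKn) hξ'.le
  have h6 := (K3_pos (C := C) hc 1).le
  have hpi := Real.pi_pos
  gcongr

theorem small_H20 {w y e k1 K E0 : ℝ} (hw : 0 < w) (hK : 0 < K) (hk1 : 0 ≤ k1) (hE0 : 0 ≤ E0)
    (hy : 0 < y) (hy1 : y ≤ 1) (hey : e ≤ E0 * y) (hKy : 1 / √y ≤ K)
    (t : y ≤ (1 / (42 * ((2 * E0 + 4 * Real.pi * k1 + 1) * w))) ^ 2) :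
    (2 * e + 4 * Real.pi * k1 * (1 / K)) * w ≤ 1 / 6 - 1 / 7 := by
  have hpi := Real.pi_pos
  have hs : 0 < √y := Real.sqrt_pos.2 hy
  have hys : y ≤ √y := by
    rw [Real.le_sqrt hy.le hy.le]
    nlinarith
  have hKs : 1 / K ≤ √y := by
    rw [div_le_iff₀ hK]
    rw [div_le_iff₀ hs] at hKy
    linarith
  have hsq : √y ≤ 1 / (42 * ((2 * E0 + 4 * Real.pi * k1 + 1) * w)) := by
    rw [Real.sqrt_le_left (by positivity)]
    exact t
  rw [le_div_iff₀ (by positivity)] at hsq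
  have h1 : 2 * e + 4 * Real.pi * k1 * (1 / K) ≤ (2 * E0 + 4 * Real.pi * k1) * √y := by
    have h2 : e ≤ E0 * √y := hey.trans (mul_le_mul_of_nonneg_left hys hE0)
    have h3 : 4 * Real.pi * k1 * (1 / K) ≤ 4 * Real.pi * k1 * √y :=
      mul_le_mul_of_nonneg_left hKs (by positivity)
    linarith
  have h4 : (2 * E0 + 4 * Real.pi * k1) * √y * w ≤ 1 / 42 := by
    have h5 : (2 * E0 + 4 * Real.pi * k1) * √y * w ≤
        (2 * E0 + 4 * Real.pi * k1 + 1) * √y * w :=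
      mul_le_mul_of_nonneg_right (mul_le_mul_of_nonneg_right (by linarith) hs.le) hw.le
    linarith
  have h6 := mul_le_mul_of_nonneg_right h1 hw.le
  linarith

theorem fin_e {E0 k4 y e : ℝ} (hk4 : 0 ≤ k4) (hy : 0 ≤ y) (h : e ≤ E0 * y) :
    3 * e ≤ (3 * E0 + 42 * (1 + k4)) * y := by
  have h1 : 0 ≤ 42 * (1 + k4) * y := by positivity
  nlinarith

theorem fin_a {E0 k4 y s a α : ℝ} (hk4 : 0 ≤ k4) (hE0 : 0 ≤ E0) (hα : α ≤ a + y) (hys : y ≤ s)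
    (hs : 0 ≤ s) : α + (1 + k4) * (s + 40 * y) ≤ a + (3 * E0 + 42 * (1 + k4)) * s := by
  have h1 : (1 + k4) * (s + 40 * y) ≤ (1 + k4) * (41 * s) :=
    mul_le_mul_of_nonneg_left (by linarith) (by positivity)
  have h2 : 0 ≤ 3 * E0 * s := by positivity
  have h3 : 0 ≤ k4 * s := by positivity
  nlinarith

/-- the first transfer with all the smallness conditions explicit -/
theorem trans0_core {b1 b2 A W ys c C : ℝ} {X : ℕ} (hb1 : 0 < b1) (hA0 : 0 ≤ A) (hc : 0 < c)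
    (hC : 0 ≤ C) (h : HB b1 b2 (A + 1) W ys c C X) {yT : ℝ}
    (t1 : yT ≤ ys) (t2 : yT ≤ 1 / 64) (t3 : yT ≤ c ^ 2) (t4 : yT ≤ (1 / ((X : ℝ) + 1)) ^ 2)
    (t5 : yT ≤ (1 / (42 * ((2 * (1 + D3 c C + 34 * (2 + 80 * A)) +
      4 * Real.pi * K3 c C 1 + 1) * (1 + 2 * W ^ 2)))) ^ 2)
    {b : ℝ} (hbb1 : b1 ≤ b) (hbb2 : b ≤ b2)
    {N N' n K ξ : ℕ} [NeZero N] [NeZero N'] {y a : ℝ} (hXξ : X ≤ ξ) (hξ : 1 ≤ ξ)
    (hKn : K ≤ n) (hN : N = n * ξ) (hN' : N' = K * ξ) (hy : 0 < y)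
    (hyy : y ≤ yT) (hK1 : 1 / √y ≤ (K : ℝ)) (hK2 : (K : ℝ) ≤ 2 / √y) (haA : a ≤ A)
    (hQ : H764.Hyp 6 W (ξ : ℝ) (H41.G b N (ξ : ℝ)) y a) :
    H764.Hyp 7 W (ξ : ℝ) (H41.G b N' (ξ : ℝ))
      ((3 * (1 + D3 c C + 34 * (2 + 80 * A)) + 42 * (1 + K3 c C 4)) * y)
      (a + (3 * (1 + D3 c C + 34 * (2 + 80 * A)) + 42 * (1 + K3 c C 4)) * √y) := by
  have hk1 := K3_pos (C := C) hc 1
  have hk4 := K3_pos (C := C) hc 4
  have hD := D3_nonneg (C := C) hc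
  have hb : 0 ≤ b := (hb1.trans_le hbb1).le
  have hξ' : (0 : ℝ) < ξ := by exact_mod_cast hξ
  have hs : 0 < √y := Real.sqrt_pos.2 hy
  have hss : √y * √y = y := Real.mul_self_sqrt hy.le
  have hy1 : y ≤ 1 := by linarith
  have hys : y ≤ √y := by
    rw [Real.le_sqrt hy.le hy.le]
    nlinarith
  have hs8 : √y ≤ 1 / 8 := by
    rw [Real.sqrt_le_left (by norm_num)]
    linarith
  have hsX : √y ≤ 1 / ((X : ℝ) + 1) := by
    rw [Real.sqrt_le_left (by positivity)]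
    exact hyy.trans t4
  have hsc : √y ≤ c := by
    rw [Real.sqrt_le_left hc.le]
    exact hyy.trans t3
  have hK8 : 8 ≤ K := by
    have h1 : (8 : ℝ) ≤ 1 / √y := by
      rw [le_div_iff₀ hs]
      linarith
    exact_mod_cast h1.trans hK1
  have hXK : X ≤ K := by
    have h1 : (X : ℝ) ≤ 1 / √y := by
      rw [le_div_iff₀ hs]
      rw [le_div_iff₀ (by positivity)] at hsX
      nlinarith
    exact_mod_cast h1.trans hK1
  have hK0 : (0 : ℝ) < K := by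
    have : 0 < K := by omega
    exact_mod_cast this
  have hKy : (K : ℝ) * y ≤ 2 * c := by
    rw [le_div_iff₀ hs] at hK2
    have h1 : (K : ℝ) * y = (K * √y) * √y := by rw [mul_assoc, hss]
    rw [h1]
    nlinarith
  have hKy2 : 1 / (K : ℝ) ^ 2 ≤ y := by
    rw [div_le_iff₀ (by positivity)]
    rw [div_le_iff₀ hs] at hK1
    have h1 : y * (K : ℝ) ^ 2 = (K * √y) * (K * √y) := by
      calc y * (K : ℝ) ^ 2 = (√y * √y) * (K : ℝ) ^ 2 := by rw [hss]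
        _ = _ := by ring
    rw [h1]
    nlinarith
  have hNdiv : ξ ∣ N := ⟨n, by rw [hN]; ring⟩
  have hXN : X * ξ ≤ N := by
    rw [hN]
    exact Nat.mul_le_mul_right ξ (hXK.trans hKn)
  have hG := fun w => H41.G_nonneg (N := N) hb hξ' w
  have h0 : H764.Gh (H41.G b N (ξ : ℝ)) 0 ≤ (ξ : ℝ) ^ 2 := H41.Gh_le hb hξ' 0
  have h2N : 2 ≤ N := by
    rw [hN]
    have : 8 * 1 ≤ n * ξ := Nat.mul_le_mul (by omega) hξ
    omega
  have hna := H705.neg_slope (by exact_mod_cast hξ : (1 : ℝ) ≤ ξ) h2N hG h0 hQ.qu.qk hy.le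
  obtain ⟨α, hα0, haα, hαy, hαA⟩ : ∃ α : ℝ, 0 ≤ α ∧ a ≤ α ∧ α ≤ a + y ∧ α ≤ A :=
    ⟨max a 0, le_max_right _ _, le_max_left _ _, max_le (by linarith) (by linarith),
      max_le haA hA0⟩
  have hQα : H764.Hyp 6 W (ξ : ℝ) (H41.G b N (ξ : ℝ)) y α :=
    hQ.mono (by norm_num) le_rfl hξ'.le le_rfl haα
  have hrng : Rng b1 b2 (A + 1) W ys X N b ξ y :=
    ⟨hbb1, hbb2, hXξ, hXN, hNdiv, hy.le, by linarith,
      hQα.mono (by norm_num) (by norm_num) hξ'.le le_rfl (by linarith)⟩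
  have hHA : HA N b ξ hb y c C := h N b hb ξ y hrng
  obtain ⟨e, he1, he2, he4, he5⟩ := core0 (N := N) (N' := N') hb hξ hc hC hy hHA hK8
    hKn hN hN' hKy hKy2 hα0 hQα
  have hE0 : 0 ≤ 1 + D3 c C + 34 * (2 + 80 * A) := by positivity
  have hey : e ≤ (1 + D3 c C + 34 * (2 + 80 * A)) * y := by
    refine he2.trans (mul_le_mul_of_nonneg_right ?_ hy.le)
    linarith
  have hH2 : H764.H2 7 W (ξ : ℝ) (H41.G b N' (ξ : ℝ)) :=
    he5 (small_H20 (by positivity) hK0 hk1.le hE0 hy hy1 hey hK1 (hyy.trans t5))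
  refine ⟨(he4.qk.mono hξ'.le (fin_e hk4.le hy.le hey) (fin_a hk4.le hE0 hαy hys hs.le)).qu, hH2⟩

/-- **Trans0Q** -/
theorem trans0Q {b1 b2 A : ℝ} (hb1 : 0 < b1) (hA0 : 0 ≤ A) (h : Spec.ThmA b1 b2 (A + 1)) :
    Frame.Trans0Q Frame.QL b1 b2 A := by
  obtain ⟨W0, h⟩ := h
  refine ⟨W0, fun W hW => ?_⟩
  obtain ⟨c, C, ys, X, hc, hC, hys, hX, h⟩ := h W hW
  have hB : HB b1 b2 (A + 1) W ys c C X := fun N _ b hb ξ y hr x0 m hm =>
    (h N b hb ξ y hr x0 m hm).1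
  clear h
  have hk1 := K3_pos (C := C) hc 1
  have hk4 := K3_pos (C := C) hc 4
  have hD := D3_nonneg (C := C) hc
  have hpi := Real.pi_pos
  obtain ⟨yT, hyT, t1, t2, t3, t4, t5⟩ : ∃ yT : ℝ, 0 < yT ∧ yT ≤ ys ∧ yT ≤ 1 / 64 ∧
      yT ≤ c ^ 2 ∧ yT ≤ (1 / ((X : ℝ) + 1)) ^ 2 ∧
      yT ≤ (1 / (42 * ((2 * (1 + D3 c C + 34 * (2 + 80 * A)) +
      4 * Real.pi * K3 c C 1 + 1) * (1 + 2 * W ^ 2)))) ^ 2 := by
    refine ⟨min (min ys (1 / 64)) (min (min (c ^ 2) ((1 / ((X : ℝ) + 1)) ^ 2))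
      ((1 / (42 * ((2 * (1 + D3 c C + 34 * (2 + 80 * A)) +
      4 * Real.pi * K3 c C 1 + 1) * (1 + 2 * W ^ 2)))) ^ 2)), ?_, ?_, ?_, ?_, ?_, ?_⟩
    · refine lt_min (lt_min hys (by norm_num)) (lt_min (lt_min (by positivity)
        (by positivity)) (by positivity))
    · exact (min_le_left _ _).trans (min_le_left _ _)
    · exact (min_le_left _ _).trans (min_le_right _ _)
    · exact (min_le_right _ _).trans ((min_le_left _ _).trans (min_le_left _ _))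
    · exact (min_le_right _ _).trans ((min_le_left _ _).trans (min_le_right _ _))
    · exact (min_le_right _ _).trans (min_le_right _ _)
  refine ⟨3 * (1 + D3 c C + 34 * (2 + 80 * A)) + 42 * (1 + K3 c C 4), yT, X, ?_, hyT, ?_⟩
  · nlinarith
  rintro b hbb1 hbb2 N N' n K ξ y a hXξ hKn hN hN' hy hyy hK1 hK2 haA ⟨hNZ, hQ⟩
  have hξ : 1 ≤ ξ := hX.trans hXξ
  have hNZ' : NeZero N' := by
    refine ⟨?_⟩
    rw [hN']
    have hK : 0 < K := by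
      have h1 : 0 < 1 / √y := by
        have := Real.sqrt_pos.2 hy
        positivity
      exact_mod_cast h1.trans_le hK1
    have : 0 < K * ξ := Nat.mul_pos hK (by omega)
    omega
  exact ⟨hNZ', trans0_core hb1 hA0 hc hC.le hB t1 t2 t3 t4 t5 hbb1 hbb2 hXξ hξ hKn hN hN' hy
    hyy hK1 hK2 haA hQ⟩

end Vale.Agent.P159.TM.H265
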