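import Vale.Agent.P159.TM.H265.Trans0
import Vale.Agent.P159.TM.H352.ThmA

/-!
P159, row A5I: `Trans0Q` and `TransQ` for the literal one-scale predicate, unconditional.
-/

namespace Vale.Agent.P159.TM.H265

theorem transQ_pi (b1 b2 : ℝ) (hb1 : 0 < b1) (_ : b1 ≤ b2) :
    Frame.TransQ Frame.QL b1 b2 (Real.pi / 2) :=
  transQ hb1 (by positivity) (H352.thmA hb1 b2 _)

theorem trans0Q_pi (b1 b2 : ℝ) (hb1 : 0 < b1) (_ : b1 ≤ b2) :
    Frame.Trans0Q Frame.QL b1 b2 (Real.pi / 2) :=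
  trans0Q hb1 (by positivity) (H352.thmA hb1 b2 _)

end Vale.Agent.P159.TM.H265
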