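import Vale.Agent.P159.TM.H265.V1
import Vale.Agent.P159.TM.H705.Chord
import Vale.Agent.P159.TM.H764.Slope
import Vale.Agent.P159.TM.Frame.Lit
import Vale.Agent.P159.TM.Spec.AB

/-!
P159, row A5I: **`TransQ` for the literal one-scale predicate from Theorem A (1).**
-/

open Finset

set_option linter.unusedSectionVars false

namespace Vale.Agent.P159.TM.H265

open Vale.Agent.P159.TM.Spec Vale.Agent.P159.TM.H459
open Vale.Agent.P159.TM.H705 (CN AB bx b0 dB pt tsn outB)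

variable {N : ℕ} [NeZero N] {b : ℝ} {ξ : ℕ} {y c C : ℝ}

/-- constant of the exponential error -/
noncomputable def D2 (c C : ℝ) : ℝ := √C * Real.exp c * (16 / c + 1)

theorem D2_nonneg (hc : 0 < c) : 0 ≤ D2 c C := by
  unfold D2
  have := Real.sqrt_nonneg C
  positivity

theorem err_le (hc : 0 < c) {K n : ℕ} (hn : (n : ℝ) ≤ Real.exp (c / 32 * K)) :
    √C * K * Real.exp c * Real.exp (-(c * K / 4)) +
      √C * n * Real.exp c * Real.exp (-(c * K / 8)) ≤ D2 c C * Real.exp (-(c / 32 * K)) := by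
  have hsC := Real.sqrt_nonneg C
  have hK0 : (0 : ℝ) ≤ K := Nat.cast_nonneg K
  have h1 : (K : ℝ) ≤ 16 / c * Real.exp (c * K / 16) := by
    have h2 : c * K / 16 ≤ Real.exp (c * K / 16) := by
      have := Real.add_one_le_exp (c * K / 16)
      linarith
    have h3 : (K : ℝ) = 16 / c * (c * K / 16) := by field_simp
    calc (K : ℝ) = 16 / c * (c * K / 16) := h3
      _ ≤ _ := mul_le_mul_of_nonneg_left h2 (by positivity)
  have h4 : √C * K * Real.exp c * Real.exp (-(c * K / 4)) ≤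
      √C * Real.exp c * (16 / c) * Real.exp (-(c / 32 * K)) := by
    calc √C * K * Real.exp c * Real.exp (-(c * K / 4))
        ≤ √C * (16 / c * Real.exp (c * K / 16)) * Real.exp c * Real.exp (-(c * K / 4)) := by
          gcongr
      _ = √C * Real.exp c * (16 / c) * (Real.exp (c * K / 16) * Real.exp (-(c * K / 4))) := by
          ring
      _ ≤ √C * Real.exp c * (16 / c) * Real.exp (-(c / 32 * K)) := by
          refine mul_le_mul_of_nonneg_left ?_ (by positivity)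
          rw [← Real.exp_add]
          refine Real.exp_le_exp.2 ?_
          have : 0 ≤ c * K := by positivity
          nlinarith
  have h5 : √C * n * Real.exp c * Real.exp (-(c * K / 8)) ≤
      √C * Real.exp c * Real.exp (-(c / 32 * K)) := by
    calc √C * n * Real.exp c * Real.exp (-(c * K / 8))
        ≤ √C * Real.exp (c / 32 * K) * Real.exp c * Real.exp (-(c * K / 8)) := by gcongr
      _ = √C * Real.exp c * (Real.exp (c / 32 * K) * Real.exp (-(c * K / 8))) := by ring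
      _ ≤ √C * Real.exp c * Real.exp (-(c / 32 * K)) := by
          refine mul_le_mul_of_nonneg_left ?_ (by positivity)
          rw [← Real.exp_add]
          refine Real.exp_le_exp.2 ?_
          have : 0 ≤ c * K := by positivity
          nlinarith
  unfold D2
  nlinarith

theorem tail_h2 (hb : 0 ≤ b) (hξ : 1 ≤ ξ) (hc : 0 < c) (hC : 0 ≤ C) (hy : 0 ≤ y)
    (hA : HA N b ξ hb y c C) {K n : ℕ} (hK : 8 ≤ K) (hKn : K ≤ n) (hN : N = n * ξ)
    (hKy : (K : ℝ) * y ≤ 4 * c) :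
    ∑ w ∈ univ.filter (fun w : V N => K * ξ / 4 < sn w), H41.G b N (ξ : ℝ) w ≤
      (ξ : ℝ) ^ 2 * (√C * n * Real.exp c * Real.exp (-(c * K / 8))) := by
  have hξ' : (0 : ℝ) < ξ := by exact_mod_cast hξ
  have hξ1 : (1 : ℝ) ≤ ξ := by exact_mod_cast hξ
  have hsC := Real.sqrt_nonneg C
  have h8 : 8 * ξ ≤ K * ξ := Nat.mul_le_mul_right ξ hK
  have hKN : K * ξ ≤ N := by rw [hN]; exact Nat.mul_le_mul_right ξ hKn
  obtain ⟨m, hm⟩ := Nat.exists_eq_add_of_le (show ξ ≤ K * ξ / 4 by omega)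
  have hm4 : 4 * (m : ℝ) + 4 * ξ ≤ K * ξ := by
    have : 4 * m + 4 * ξ ≤ K * ξ := by omega
    exact_mod_cast this
  have hm5 : (K : ℝ) * ξ ≤ 4 * m + 4 * ξ + 3 := by
    have : K * ξ ≤ 4 * m + 4 * ξ + 3 := by omega
    exact_mod_cast this
  have hmy : (m : ℝ) * y ≤ c * ξ := by
    have h1 : (m : ℝ) ≤ K * ξ / 4 := by linarith
    have h2 : (m : ℝ) * y ≤ K * ξ / 4 * y := mul_le_mul_of_nonneg_right h1 hy
    nlinarith
  have h := vt hb hξ (by omega) hC hA hmy (by omega)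
  have e1 : univ.filter (fun w : V N => K * ξ / 4 < sn w) =
      univ.filter (fun w : V N => m + ξ < sn w) := by
    refine filter_congr fun w _ => ?_
    omega
  rw [e1]
  refine h.trans ?_
  have h6 : Real.exp (-(c * m / (2 * ξ))) ≤ Real.exp c * Real.exp (-(c * K / 8)) := by
    rw [← Real.exp_add]
    refine Real.exp_le_exp.2 ?_
    have h7 : c * K / 8 - c ≤ c * m / (2 * ξ) := by
      rw [le_div_iff₀ (by positivity)]
      have h8 := mul_le_mul_of_nonneg_left hm5 hc.le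
      nlinarith
    linarith
  have hNr : (N : ℝ) = n * ξ := by rw [hN]; push_cast; ring
  calc √C * ξ * N * Real.exp (-(c * m / (2 * ξ))) ≤
        √C * ξ * N * (Real.exp c * Real.exp (-(c * K / 8))) := by gcongr
    _ = _ := by rw [hNr]; ring

/-- the step from one torus to the other -/
theorem core {N' : ℕ} [NeZero N'] (hb : 0 ≤ b) (hξ : 1 ≤ ξ) (hc : 0 < c) (hC : 0 ≤ C)
    (hy : 0 < y) (hA : HA N b ξ hb y c C) {K n n' : ℕ} (hK : 8 ≤ K) (hKn : K ≤ n)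
    (hKn' : K ≤ n') (hN : N = n * ξ) (hN' : N' = n' * ξ) (hKy : (K : ℝ) * y ≤ c / 32)
    (hn : (n : ℝ) ≤ Real.exp (c / 32 * K)) {α W : ℝ} (hα : 0 ≤ α)
    (hQ : H764.Hyp 7 W (ξ : ℝ) (H41.G b N (ξ : ℝ)) y α) :
    ∃ e : ℝ, y ≤ e ∧ e ≤ y + D2 c C * Real.exp (-(c / 32 * K)) ∧
      (1 - e) * (ξ : ℝ) ^ 2 ≤ ∑ w, H41.G b N' (ξ : ℝ) w ∧
      H764.QU (ξ : ℝ) (H41.G b N' (ξ : ℝ)) (3 * e)
        (α + (1 + K3 c C 4) * (√y + 40 / (K : ℝ) ^ 2)) ∧
      ((2 * e + 4 * Real.pi * K3 c C 1 * (1 / K)) * (1 + 2 * W ^ 2) ≤ 1 / 7 - 1 / 10 →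
        H764.H2 10 W (ξ : ℝ) (H41.G b N' (ξ : ℝ))) := by
  have hξ' : (0 : ℝ) < ξ := by exact_mod_cast hξ
  have hξ1 : (1 : ℝ) ≤ ξ := by exact_mod_cast hξ
  have hK0 : (0 : ℝ) < K := by
    have : 0 < K := by omega
    exact_mod_cast this
  have hsC := Real.sqrt_nonneg C
  have h8 : 8 * ξ ≤ K * ξ := Nat.mul_le_mul_right ξ hK
  have hKN : K * ξ ≤ N := by rw [hN]; exact Nat.mul_le_mul_right ξ hKn
  have hKN' : K * ξ ≤ N' := by rw [hN']; exact Nat.mul_le_mul_right ξ hKn'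
  have hNr : (N : ℝ) = n * ξ := by rw [hN]; push_cast; ring
  have hn0 : (0 : ℝ) < n := lt_of_lt_of_le hK0 (by exact_mod_cast hKn)
  have hG := fun w => H41.G_nonneg (N := N) hb hξ' w
  set e1 := √C * K * Real.exp c * Real.exp (-(c * K / 4)) with he1
  set e2 := √C * n * Real.exp c * Real.exp (-(c * K / 8)) with he2
  have he1' : 0 ≤ e1 := by positivity
  have he2' : 0 ≤ e2 := by positivity
  have herr := err_le (C := C) hc hn
  have hR : ((K * ξ / 4 : ℕ) : ℝ) * y ≤ c * ξ := by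
    have h1 : ((K * ξ / 4 : ℕ) : ℝ) ≤ K * ξ / 4 := by
      have : ((K * ξ / 4 : ℕ) : ℝ) ≤ ((K * ξ : ℕ) : ℝ) / 4 := Nat.cast_div_le
      push_cast at this
      exact this
    have h2 := mul_le_mul_of_nonneg_right h1 hy.le
    nlinarith
  have hv1 := v1 hb hξ hc.le hC hy.le hA hK hKN (by linarith)
  have hv2 := tail_h2 hb hξ hc hC hy.le hA hK hKn hN (by linarith)
  have h2 : 2 * ξ ≤ N := by omega
  have hm1 := v2j hb hξ h2 hc hC hy.le hA hR 1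
  have hm4 := v2j hb hξ h2 hc hC hy.le hA hR 4
  have hm4' : tsn (K * ξ / 4) (H41.G b N (ξ : ℝ)) (fun w => (w.1.valMinAbs : ℝ) ^ 4) ≤
      K3 c C 4 * (ξ : ℝ) ^ 6 := by
    refine le_trans (le_of_eq ?_) hm4
    unfold tsn
    refine sum_congr rfl fun w _ => ?_
    have e4 : |(w.1.valMinAbs : ℝ)| ^ 4 = (w.1.valMinAbs : ℝ) ^ 4 := by
      rw [← abs_pow, abs_of_nonneg (by positivity)]
    simp only [e4]
  have hm1' : tsn (K * ξ / 4) (H41.G b N (ξ : ℝ)) (fun w => |(w.1.valMinAbs : ℝ)|) ≤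
      K3 c C 1 * (ξ : ℝ) ^ 3 := by
    refine le_trans (le_of_eq ?_) hm1
    simp only [pow_one]
  have h0 : H764.Gh (H41.G b N (ξ : ℝ)) 0 ≤ (ξ : ℝ) ^ 2 := H41.Gh_le hb hξ' 0
  have hch := H705.chord_trunc (r := K * ξ / 4) hξ' (by omega : 1 ≤ n) hNr hG h0 hQ.qu.qk hy hα
    hm4'
  have hm2 : tsn (K * ξ / 4) (H41.G b N (ξ : ℝ)) (fun w => (w.1.valMinAbs : ℝ) ^ 2) ≤
      2 * (α + (1 + K3 c C 4) * (√y + 40 / (K : ℝ) ^ 2)) * (ξ : ℝ) ^ 4 := by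
    refine hch.trans ?_
    have h3 : (40 : ℝ) / (n : ℝ) ^ 2 ≤ 40 / (K : ℝ) ^ 2 := by
      have : (K : ℝ) ≤ n := by exact_mod_cast hKn
      gcongr
    have h4 := K3_pos (C := C) hc 4
    gcongr
  have h3 : (1 - y) * (ξ : ℝ) ^ 2 ≤ ∑ w, H41.G b N (ξ : ℝ) w := by
    have := hQ.qu.qk 0
    rw [H764.EE_zero, mul_zero, sub_zero, H705.Gh_zero] at this
    exact this
  obtain ⟨t1, t2, t3⟩ := H705.trans_model (M := N') hK hξ hKN hKN' hb hv1 hv2 h3 hm2 hm1'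
  refine ⟨y + e1 + e2, by linarith, by linarith, t1, t2, fun hh => ?_⟩
  refine t3 7 10 W (by norm_num) (by norm_num) hQ.h2 (le_trans ?_ hh)
  have h5 : (ξ : ℝ) / N ≤ 1 / K := by
    rw [hNr, div_le_div_iff₀ (by positivity) hK0]
    have : (K : ℝ) ≤ n := by exact_mod_cast hKn
    nlinarith
  have h6 := (K3_pos (C := C) hc 1).le
  have hpi := Real.pi_pos
  gcongr

theorem tsn_full (G φ : V N → ℝ) : tsn N G φ = ∑ w, φ w * G w := by
  unfold tsn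
  rw [filter_true_of_mem]
  intro w _
  unfold sn
  have h1 := ZMod.natAbs_valMinAbs_le w.1
  have h2 := ZMod.natAbs_valMinAbs_le w.2
  omega

/-- the chord on the new torus -/
theorem core2 (hb : 0 ≤ b) (hξ : 1 ≤ ξ) (hc : 0 < c) (hC : 0 ≤ C) {e a2 : ℝ} (he : 0 < e)
    (hA : HA N b ξ hb (3 * e) c C) {n : ℕ} (hn : 2 ≤ n) (hN : N = n * ξ)
    (h1 : (1 - e) * (ξ : ℝ) ^ 2 ≤ ∑ w, H41.G b N (ξ : ℝ) w) (ha2 : 0 ≤ a2)
    (h2 : H764.QU (ξ : ℝ) (H41.G b N (ξ : ℝ)) (3 * e) a2) (hec : 3 * (3 * e) ≤ c)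
    (hp : (n : ℝ) * (3 * e) ^ 5 ≤ 1) :
    H764.QU (ξ : ℝ) (H41.G b N (ξ : ℝ)) e
      (a2 + (1 + K4 c C 5) * (√(3 * e) + 40 / (n : ℝ) ^ 2)) := by
  have hξ' : (0 : ℝ) < ξ := by exact_mod_cast hξ
  have hG := fun w => H41.G_nonneg (N := N) hb hξ' w
  have hNr : (N : ℝ) = n * ξ := by rw [hN]; push_cast; ring
  have h2ξ : 2 * ξ ≤ N := by rw [hN]; exact Nat.mul_le_mul_right ξ hn
  have hp' : (N : ℝ) * (3 * e) ^ 5 ≤ ξ := by
    rw [hNr]
    calc (n : ℝ) * ξ * (3 * e) ^ 5 = ((n : ℝ) * (3 * e) ^ 5) * ξ := by ring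
      _ ≤ 1 * (ξ : ℝ) := mul_le_mul_of_nonneg_right hp hξ'.le
      _ = (ξ : ℝ) := one_mul _
  have h4 := v3 hb hξ h2ξ hc hC (by positivity : 0 < 3 * e) hA hec 5 hp'
  have h4' : tsn N (H41.G b N (ξ : ℝ)) (fun w => (w.1.valMinAbs : ℝ) ^ 4) ≤
      K4 c C 5 * (ξ : ℝ) ^ 6 := by
    rw [tsn_full]
    exact h4
  have h0 : H764.Gh (H41.G b N (ξ : ℝ)) 0 ≤ (ξ : ℝ) ^ 2 := H41.Gh_le hb hξ' 0
  have hch := H705.chord_trunc (r := N) hξ' (by omega : 1 ≤ n) hNr hG h0 h2.qk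
    (by positivity) ha2 h4'
  rw [tsn_full] at hch
  have h5 := H764.QU_of_moments hξ' (H41.G b N (ξ : ℝ)) hG (H41.G_refl b _) (H41.G_swap b _) h1
  refine (h5.qk.mono hξ'.le le_rfl ?_).qu
  rw [div_le_iff₀ (by positivity)]
  unfold H764.M2
  refine hch.trans (le_of_eq ?_)
  ring

theorem K4_nonneg (hc : 0 < c) (p : ℕ) : 0 ≤ K4 c C p := by
  unfold K4
  have h1 := (K3_pos (C := C) hc 4).le
  have h2 := Real.sqrt_nonneg C
  positivity

/-- arithmetic of the slopes -/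
theorem slopes {a α y e es K n' k4 k5 : ℝ} (hα : α ≤ a + y) (hy : 0 < y) (hy1 : y ≤ 1)
    (hyes : y ≤ es) (hees : e ≤ es) (hK : 0 < K) (hKn : K ≤ n') (hk4 : 0 ≤ k4)
    (hk5 : 0 ≤ k5) {D : ℝ} (hD : 0 ≤ D) :
    α + (1 + k4) * (√y + 40 / K ^ 2) + (1 + k5) * (√(3 * e) + 40 / n' ^ 2) ≤
      a + (D + 40 * (4 + k4 + k5)) * (√es + 1 / K ^ 2) := by
  have hes : 0 < es := lt_of_lt_of_le hy hyes
  have h1 : y ≤ √es := by
    have h2 : y ≤ √y := by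
      rw [Real.le_sqrt hy.le hy.le]
      nlinarith
    exact h2.trans (Real.sqrt_le_sqrt hyes)
  have h3 : √y ≤ √es := Real.sqrt_le_sqrt hyes
  have h4 : √(3 * e) ≤ 2 * √es := by
    have h5 : √(3 * e) ≤ √(4 * es) := Real.sqrt_le_sqrt (by linarith)
    have h6 : √(4 * es) = 2 * √es := by
      rw [Real.sqrt_mul (by norm_num)]
      congr 1
      rw [Real.sqrt_eq_iff_mul_self_eq (by norm_num) (by norm_num)]
      norm_num
    linarith
  have h7 : 40 / n' ^ 2 ≤ 40 * (1 / K ^ 2) := by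
    rw [mul_one_div]
    gcongr
  have h8 : 40 / K ^ 2 = 40 * (1 / K ^ 2) := by ring
  have hs : 0 ≤ √es := Real.sqrt_nonneg _
  have hk : 0 ≤ 1 / K ^ 2 := by positivity
  rw [h8]
  generalize √es = s at *
  generalize (1 / K ^ 2 : ℝ) = t at *
  have g1 : (1 + k4) * (√y + 40 * t) ≤ (1 + k4) * (s + 40 * t) := by gcongr
  have g2 : (1 + k5) * (√(3 * e) + 40 / n' ^ 2) ≤ (1 + k5) * (2 * s + 40 * t) := by gcongr
  have g3 : 0 ≤ k4 * s := mul_nonneg hk4 hs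
  have g4 : 0 ≤ k5 * s := mul_nonneg hk5 hs
  have g5 : 0 ≤ D * (s + t) := mul_nonneg hD (by linarith)
  nlinarith

/-- Theorem A (1) in the whole range -/
def HB (b1 b2 a W ys c C : ℝ) (X : ℕ) : Prop :=
  ∀ (N : ℕ) [NeZero N] (b : ℝ) (hb : 0 ≤ b) (ξ : ℕ) (y : ℝ), Rng b1 b2 a W ys X N b ξ y →
    HA N b ξ hb y c C

theorem small_H2 {w y e k1 K : ℝ} (hw : 0 < w) (hK : 0 < K) (hey : e ≤ 2 * y)
    (t4 : y ≤ 1 / (280 * w)) (x3 : 280 * Real.pi * k1 * w ≤ K) :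
    (2 * e + 4 * Real.pi * k1 * (1 / K)) * w ≤ 1 / 7 - 1 / 10 := by
  have h5 : 2 * e * w ≤ 1 / 70 := by
    rw [le_div_iff₀ (by positivity)] at t4
    have h7 : e * w ≤ 2 * y * w := mul_le_mul_of_nonneg_right hey hw.le
    linarith
  have h8 : 4 * Real.pi * k1 * (1 / K) * w ≤ 1 / 70 := by
    have h10 : 4 * Real.pi * k1 * (1 / K) * w = (280 * Real.pi * k1 * w) / (70 * K) := by
      field_simp
      ring
    rw [h10, div_le_div_iff₀ (by positivity) (by norm_num)]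
    linarith
  have h11 : (2 * e + 4 * Real.pi * k1 * (1 / K)) * w =
      2 * e * w + 4 * Real.pi * k1 * (1 / K) * w := by ring
  rw [h11]
  linarith

theorem small_a2 {y k4 K α A : ℝ} (hk4 : 0 ≤ k4) (hK : 1 ≤ K)
    (t5 : y ≤ 1 / (4 * (1 + k4) ^ 2)) (x4 : 80 * (1 + k4) ≤ K) (hα : α ≤ A) :
    α + (1 + k4) * (√y + 40 / K ^ 2) ≤ A + 1 := by
  have h5 : (1 + k4) * √y ≤ 1 / 2 := by
    have h6 : √y ≤ 1 / (2 * (1 + k4)) := by
      rw [Real.sqrt_le_left (by positivity)]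
      refine t5.trans (le_of_eq ?_)
      field_simp
      ring
    calc (1 + k4) * √y ≤ (1 + k4) * (1 / (2 * (1 + k4))) :=
          mul_le_mul_of_nonneg_left h6 (by positivity)
      _ = 1 / 2 := by field_simp
  have h7 : (1 + k4) * (40 / K ^ 2) ≤ 1 / 2 := by
    rw [mul_div_assoc', div_le_div_iff₀ (by positivity) (by norm_num)]
    have h8 : K ≤ K ^ 2 := by nlinarith
    linarith
  rw [mul_add]
  linarith

theorem small_p {y e n' : ℝ} (hy : 0 < y) (he0 : 0 < e) (hey : e ≤ 2 * y)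
    (hn' : n' ≤ (1 / y) ^ 4) (t2 : y ≤ 1 / 7776) : n' * (3 * e) ^ 5 ≤ 1 := by
  have h5 : (3 * e) ^ 5 ≤ (6 * y) ^ 5 := pow_le_pow_left₀ (by linarith) (by linarith) 5
  have h6 : n' * (3 * e) ^ 5 ≤ (1 / y) ^ 4 * (6 * y) ^ 5 :=
    mul_le_mul hn' h5 (by positivity) (by positivity)
  have h7 : (1 / y) ^ 4 * (6 * y) ^ 5 = 7776 * y := by
    field_simp
    norm_num
  linarith

/-- one transfer with all the smallness conditions explicit -/
theorem transQ_core {b1 b2 A W ys c C : ℝ} {X : ℕ} (hb1 : 0 < b1) (hA0 : 0 ≤ A) (hc : 0 < c)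
    (hC : 0 ≤ C) (h : HB b1 b2 (A + 1) W ys c C X) {yT : ℝ} {XT : ℕ}
    (t1 : yT ≤ ys / 6) (t2 : yT ≤ 1 / 7776) (t3 : yT ≤ c / 18)
    (t4 : yT ≤ 1 / (280 * (1 + 2 * W ^ 2))) (t5 : yT ≤ 1 / (4 * (1 + K3 c C 4) ^ 2))
    (x1 : X ≤ XT) (x2 : 8 ≤ XT) (x3 : 280 * Real.pi * K3 c C 1 * (1 + 2 * W ^ 2) ≤ (XT : ℝ))
    (x4 : 80 * (1 + K3 c C 4) ≤ (XT : ℝ)) {b : ℝ} (hbb1 : b1 ≤ b) (hbb2 : b ≤ b2)
    {N N' n n' K ξ : ℕ} [NeZero N] [NeZero N'] {y a : ℝ} (hXξ : XT ≤ ξ) (hXK : XT ≤ K)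
    (hKn : K ≤ n) (hKn' : K ≤ n') (hN : N = n * ξ) (hN' : N' = n' * ξ) (hy : 0 < y)
    (hyy : y ≤ yT) (hKy : (K : ℝ) * y ≤ c / 32)
    (hCy : (D2 c C + 40 * (4 + K3 c C 4 + K4 c C 5)) * Real.exp (-(c / 32 * K)) ≤ y)
    (hnexp : (n : ℝ) ≤ Real.exp (c / 32 * K)) (hn'4 : (n' : ℝ) ≤ (1 / y) ^ 4) (haA : a ≤ A)
    (hQ : H764.Hyp 7 W (ξ : ℝ) (H41.G b N (ξ : ℝ)) y a) :
    H764.Hyp 10 W (ξ : ℝ) (H41.G b N' (ξ : ℝ))
      (y + (D2 c C + 40 * (4 + K3 c C 4 + K4 c C 5)) * Real.exp (-(c / 32 * K)))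
      (a + (D2 c C + 40 * (4 + K3 c C 4 + K4 c C 5)) *
        (√(y + (D2 c C + 40 * (4 + K3 c C 4 + K4 c C 5)) * Real.exp (-(c / 32 * K))) +
          1 / (K : ℝ) ^ 2)) := by
  have hk1 := K3_pos (C := C) hc 1
  have hk4 := K3_pos (C := C) hc 4
  have hk5 := K4_nonneg (C := C) hc 5
  have hD := D2_nonneg (C := C) hc
  set CC : ℝ := D2 c C + 40 * (4 + K3 c C 4 + K4 c C 5) with hCC
  have hCC0 : 0 ≤ CC := by positivity
  have hb : 0 ≤ b := (hb1.trans_le hbb1).le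
  have hξ : 1 ≤ ξ := by omega
  have hξ' : (0 : ℝ) < ξ := by exact_mod_cast hξ
  have hK8 : 8 ≤ K := x2.trans hXK
  have hKr : (XT : ℝ) ≤ K := by exact_mod_cast hXK
  have hK1 : (1 : ℝ) ≤ K := by
    have : 1 ≤ K := by omega
    exact_mod_cast this
  have hK0 : (0 : ℝ) < K := by linarith
  have hNdiv : ξ ∣ N := ⟨n, by rw [hN]; ring⟩
  have hNdiv' : ξ ∣ N' := ⟨n', by rw [hN']; ring⟩
  have hXN : X * ξ ≤ N := by
    rw [hN]
    exact Nat.mul_le_mul_right ξ (x1.trans (hXK.trans hKn))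
  have hXN' : X * ξ ≤ N' := by
    rw [hN']
    exact Nat.mul_le_mul_right ξ (x1.trans (hXK.trans hKn'))
  have hG := fun w => H41.G_nonneg (N := N) hb hξ' w
  have h0 : H764.Gh (H41.G b N (ξ : ℝ)) 0 ≤ (ξ : ℝ) ^ 2 := H41.Gh_le hb hξ' 0
  have h2N : 2 ≤ N := by
    rw [hN]
    have : 8 * 1 ≤ n * ξ := Nat.mul_le_mul (by omega) hξ
    omega
  have hna := H705.neg_slope (by exact_mod_cast hξ : (1 : ℝ) ≤ ξ) h2N hG h0 hQ.qu.qk hy.le
  obtain ⟨α, hα0, haα, hαy, hαA⟩ : ∃ α : ℝ, 0 ≤ α ∧ a ≤ α ∧ α ≤ a + y ∧ α ≤ A :=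
    ⟨max a 0, le_max_right _ _, le_max_left _ _, max_le (by linarith) (by linarith),
      max_le haA hA0⟩
  have hQα : H764.Hyp 7 W (ξ : ℝ) (H41.G b N (ξ : ℝ)) y α :=
    hQ.mono (by norm_num) le_rfl hξ'.le le_rfl haα
  have hrng : Rng b1 b2 (A + 1) W ys X N b ξ y :=
    ⟨hbb1, hbb2, x1.trans hXξ, hXN, hNdiv, hy.le, by linarith,
      hQα.mono (by norm_num) (by norm_num) hξ'.le le_rfl (by linarith)⟩
  have hHA : HA N b ξ hb y c C := h N b hb ξ y hrng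
  obtain ⟨e, he1, he2, he3, he4, he5⟩ := core (N := N) (N' := N') hb hξ hc hC hy hHA hK8
    hKn hKn' hN hN' hKy hnexp hα0 hQα
  have he0 : 0 < e := by linarith
  have hE0 : 0 < Real.exp (-(c / 32 * K)) := Real.exp_pos _
  have hees : e ≤ y + CC * Real.exp (-(c / 32 * K)) := by
    refine he2.trans ?_
    have h5 : D2 c C ≤ CC := by rw [hCC]; linarith
    have h6 := mul_le_mul_of_nonneg_right h5 hE0.le
    linarith
  have hey : e ≤ 2 * y := by linarith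
  have ha20 : 0 ≤ α + (1 + K3 c C 4) * (√y + 40 / (K : ℝ) ^ 2) := by
    have := Real.sqrt_nonneg y
    positivity
  have ha2A := small_a2 (α := α) (A := A) hk4.le hK1 (hyy.trans t5) (x4.trans hKr) hαA
  have hH2 : H764.H2 10 W (ξ : ℝ) (H41.G b N' (ξ : ℝ)) :=
    he5 (small_H2 (by positivity) hK0 hey (hyy.trans t4) (x3.trans hKr))
  have hrng' : Rng b1 b2 (A + 1) W ys X N' b ξ (3 * e) :=
    ⟨hbb1, hbb2, x1.trans hXξ, hXN', hNdiv', by linarith, by linarith,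
      ⟨(he4.qk.mono hξ'.le le_rfl ha2A).qu, hH2⟩⟩
  have hHA' : HA N' b ξ hb (3 * e) c C := h N' b hb ξ (3 * e) hrng'
  have hp := small_p (n' := (n' : ℝ)) hy he0 hey hn'4 (hyy.trans t2)
  have hfin := core2 (N := N') hb hξ hc hC he0 hHA' (by omega : 2 ≤ n') hN' he3 ha20 he4
    (by linarith) hp
  refine ⟨(hfin.qk.mono hξ'.le hees ?_).qu, hH2⟩
  exact slopes hαy hy (by linarith) (by
    have : 0 ≤ CC * Real.exp (-(c / 32 * K)) := mul_nonneg hCC0 hE0.le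
    linarith) hees hK0 (by exact_mod_cast hKn') hk4.le hk5 hD

/-- **TransQ** -/
theorem transQ {b1 b2 A : ℝ} (hb1 : 0 < b1) (hA0 : 0 ≤ A) (h : Spec.ThmA b1 b2 (A + 1)) :
    Frame.TransQ Frame.QL b1 b2 A := by
  obtain ⟨W0, h⟩ := h
  refine ⟨W0, fun W hW => ?_⟩
  obtain ⟨c, C, ys, X, hc, hC, hys, hX, h⟩ := h W hW
  have hB : HB b1 b2 (A + 1) W ys c C X := fun N _ b hb ξ y hr x0 m hm =>
    (h N b hb ξ y hr x0 m hm).1
  clear h
  have hk1 := K3_pos (C := C) hc 1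
  have hk4 := K3_pos (C := C) hc 4
  have hk5 := K4_nonneg (C := C) hc 5
  have hD := D2_nonneg (C := C) hc
  obtain ⟨yT, hyT, t1, t2, t3, t4, t5⟩ : ∃ yT : ℝ, 0 < yT ∧ yT ≤ ys / 6 ∧ yT ≤ 1 / 7776 ∧
      yT ≤ c / 18 ∧ yT ≤ 1 / (280 * (1 + 2 * W ^ 2)) ∧
      yT ≤ 1 / (4 * (1 + K3 c C 4) ^ 2) := by
    refine ⟨min (min (ys / 6) (1 / 7776)) (min (min (c / 18) (1 / (280 * (1 + 2 * W ^ 2))))
      (1 / (4 * (1 + K3 c C 4) ^ 2))), ?_, ?_, ?_, ?_, ?_, ?_⟩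
    · refine lt_min (lt_min (by positivity) (by norm_num)) (lt_min (lt_min (by positivity)
        (by positivity)) (by positivity))
    · exact (min_le_left _ _).trans (min_le_left _ _)
    · exact (min_le_left _ _).trans (min_le_right _ _)
    · exact (min_le_right _ _).trans ((min_le_left _ _).trans (min_le_left _ _))
    · exact (min_le_right _ _).trans ((min_le_left _ _).trans (min_le_right _ _))
    · exact (min_le_right _ _).trans (min_le_right _ _)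
  obtain ⟨XT, x1, x2, x3, x4⟩ : ∃ XT : ℕ, X ≤ XT ∧ 8 ≤ XT ∧
      280 * Real.pi * K3 c C 1 * (1 + 2 * W ^ 2) ≤ (XT : ℝ) ∧
      80 * (1 + K3 c C 4) ≤ (XT : ℝ) := by
    refine ⟨max (max X 8) (max ⌈280 * Real.pi * K3 c C 1 * (1 + 2 * W ^ 2)⌉₊
      ⌈80 * (1 + K3 c C 4)⌉₊), (le_max_left _ _).trans (le_max_left _ _),
      (le_max_right _ _).trans (le_max_left _ _), ?_, ?_⟩
    · exact (Nat.le_ceil _).trans (by exact_mod_cast (le_max_left _ _).trans (le_max_right _ _))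
    · exact (Nat.le_ceil _).trans (by exact_mod_cast (le_max_right _ _).trans (le_max_right _ _))
  refine ⟨c / 32, D2 c C + 40 * (4 + K3 c C 4 + K4 c C 5), yT, XT, by positivity,
    by positivity, hyT, ?_⟩
  rintro b hbb1 hbb2 N N' n n' K ξ y a hXξ hXK hKn hKn' hN hN' hy hyy hKy hCy - hnexp hn'4
    haA ⟨hNZ, hQ⟩
  have hNZ' : NeZero N' := by
    refine ⟨?_⟩
    rw [hN']
    have : 0 < n' * ξ := Nat.mul_pos (by omega) (by omega)
    omega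
  exact ⟨hNZ', transQ_core hb1 hA0 hc hC.le hB t1 t2 t3 t4 t5 x1 x2 x3 x4 hbb1 hbb2 hXξ hXK
    hKn hKn' hN hN' hy hyy hKy hCy hnexp hn'4 haA hQ⟩

end Vale.Agent.P159.TM.H265
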