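import Vale.Agent.P159.TM.H265.Dec

/-!
P159, row A5I, model side: (V1), the loss of the kernel in a box of side `K ξ`.
-/

open Finset
open scoped ENNReal

set_option linter.unusedSectionVars false

namespace Vale.Agent.P159.TM.H265

open Vale.Agent.P159.TM.H60 Vale.Agent.P159.TM.Spec Vale.Agent.P159.TM.H459
open Vale.Agent.P159.TM.H705 (CN AB bx b0 dB pt tsn outB)

variable {N : ℕ} [NeZero N] {b : ℝ} {ξ : ℕ} {y c C : ℝ}

theorem pt_inj {n : ℕ} (hn : n ≤ N) {p q : ℕ × ℕ} (hp : p ∈ bx n) (hq : q ∈ bx n)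
    (h : pt N p = pt N q) : p = q := by
  unfold bx at hp hq
  rw [mem_product, mem_Ico, mem_Ico] at hp hq
  have e1 : ((p.1 : ZMod N)).val = ((q.1 : ZMod N)).val := congrArg (fun w : V N => w.1.val) h
  have e2 : ((p.2 : ZMod N)).val = ((q.2 : ZMod N)).val := congrArg (fun w : V N => w.2.val) h
  rw [ZMod.val_cast_of_lt (by omega), ZMod.val_cast_of_lt (by omega)] at e1 e2
  exact Prod.ext e1 e2

theorem val_center {n : ℕ} (hn : n ≤ N) {z : ZMod N}
    (hz : (z - ((n / 2 : ℕ) : ZMod N)).valMinAbs.natAbs ≤ n / 2 - 1) (h2 : 2 ≤ n) :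
    1 ≤ z.val ∧ z.val < n := by
  set d := (z - ((n / 2 : ℕ) : ZMod N)).valMinAbs with hd
  obtain ⟨t, ht⟩ : ∃ t : ℕ, (t : ℤ) = (n / 2 : ℕ) + d := by
    refine ⟨(((n / 2 : ℕ) : ℤ) + d).toNat, ?_⟩
    omega
  have h1 : z = ((t : ℕ) : ZMod N) := by
    have e : (((t : ℕ) : ℤ) : ZMod N) = ((((n / 2 : ℕ) : ℤ) + d : ℤ) : ZMod N) := by rw [ht]
    rw [Int.cast_natCast] at e
    rw [e, Int.cast_add, Int.cast_natCast, hd, ZMod.coe_valMinAbs]
    ring
  have h3 : t < n := by omega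
  rw [h1, ZMod.val_cast_of_lt (by omega)]
  omega

theorem disj_outB {n : ℕ} (hn : n ≤ N) (h2 : 2 ≤ n) :
    Disjoint (outB N n) (ball (pt N (n / 2, n / 2)) (n / 2 - 1)) := by
  rw [Finset.disjoint_left]
  intro z hz hb
  rw [mem_ball] at hb
  unfold sd sn at hb
  rw [max_le_iff] at hb
  have h3 := val_center hn (z := z.1) hb.1 h2
  have h4 := val_center hn (z := z.2) hb.2 h2
  rw [H705.mem_outB] at hz
  omega

theorem card_b0 {n : ℕ} (h8 : 8 * ξ ≤ n) : ξ ^ 2 ≤ (b0 n ξ).card := by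
  have h1 : (range ξ ×ˢ range ξ).card ≤ (b0 n ξ).card := by
    refine card_le_card_of_injOn (fun p => (n / 2 + p.1, n / 2 + p.2)) ?_ ?_
    · intro p hp
      have hp' := mem_product.1 (mem_coe.1 hp)
      rw [mem_range, mem_range] at hp'
      refine mem_coe.2 ?_
      unfold b0 bx dB
      rw [mem_filter, mem_product, mem_Ico, mem_Ico]
      simp only
      push_cast
      omega
    · intro p _ q _ h
      have e1 := congrArg Prod.fst h
      have e2 := congrArg Prod.snd h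
      simp only at e1 e2
      exact Prod.ext (by omega) (by omega)
  rw [card_product, card_range] at h1
  rw [pow_two]
  exact h1

/-- **(V1)** -/
theorem v1 (hb : 0 ≤ b) (hξ : 1 ≤ ξ) (hc : 0 ≤ c) (hC : 0 ≤ C) (hy : 0 ≤ y)
    (hA : HA N b ξ hb y c C) {K : ℕ} (hK : 8 ≤ K) (hKN : K * ξ ≤ N) (hKy : (K : ℝ) * y ≤ 2 * c) :
    ∑ u ∈ b0 (K * ξ) ξ, ∑ z ∈ (bx (K * ξ)).filter (fun z => dB u z ≤ K * ξ / 4),
      (H41.G b N (ξ : ℝ) (pt N z - pt N u) - AB N b (ξ : ℝ) (K * ξ) u z) ≤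
        ((b0 (K * ξ) ξ).card : ℝ) * (ξ : ℝ) ^ 2 *
          (√C * K * Real.exp c * Real.exp (-(c * K / 4))) := by
  classical
  have hξ' : (0 : ℝ) < ξ := by exact_mod_cast hξ
  have hξ1 : (1 : ℝ) ≤ ξ := by exact_mod_cast hξ
  have h8 : 8 * ξ ≤ K * ξ := Nat.mul_le_mul_right ξ hK
  set n := K * ξ with hn
  have hnr : (n : ℝ) = K * ξ := by rw [hn]; push_cast; ring
  set x0 := pt N (n / 2, n / 2) with hx0
  set m := n / 2 - 1 with hm
  set F : V N → V N → ℝ := fun u z => H41.G b N (ξ : ℝ) (z - u) -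
    CT b (ξ : ℝ) ((outB N n : Finset (V N)) : Set (V N)) u z with hF
  have hF0 : ∀ u z, 0 ≤ F u z := fun u z => sub_nonneg.2 (ct_le hb hξ' _ u z)
  set S : Finset (V N) := (bx n).image (pt N) with hS
  have hm1 : (m : ℝ) ≤ n / 2 := by
    have : 2 * m ≤ n := by omega
    have h : (2 * m : ℝ) ≤ n := by exact_mod_cast this
    linarith
  have hm2 : ((n : ℝ) - 3) / 2 ≤ m := by
    have : n ≤ 2 * m + 3 := by omega
    have h : (n : ℝ) ≤ 2 * m + 3 := by exact_mod_cast this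
    linarith
  have hmy : (m : ℝ) * y ≤ c * ξ := by
    have h1 : (m : ℝ) * y ≤ n / 2 * y := mul_le_mul_of_nonneg_right hm1 hy
    rw [hnr] at h1
    nlinarith
  set E := Real.exp (-(c * m / (2 * ξ))) with hE
  have hE0 : 0 < E := Real.exp_pos _
  have hE2 : Real.exp (-(c * m / ξ)) = E ^ 2 := by
    rw [hE, ← Real.exp_nat_mul]
    congr 1
    push_cast
    field_simp
  have hw : 0 ≤ C * (ξ : ℝ) ^ 4 * Real.exp (-(c * m / ξ)) := by positivity
  have h1 := vt1 (N := N) hb (by omega : 0 < ξ) (B := ball x0 ξ) (P := outB N n)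
    (Λ := ball x0 m) (ball_mono (by omega)) (disj_outB hKN (by omega)) hw (hA x0 m hmy) S
  have h2 : ∑ u ∈ b0 n ξ, ∑ z ∈ (bx n).filter (fun z => dB u z ≤ n / 4),
      (H41.G b N (ξ : ℝ) (pt N z - pt N u) - AB N b (ξ : ℝ) n u z) ≤
      ∑ u ∈ ball x0 ξ, ∑ z ∈ S, F u z := by
    calc ∑ u ∈ b0 n ξ, ∑ z ∈ (bx n).filter (fun z => dB u z ≤ n / 4),
          (H41.G b N (ξ : ℝ) (pt N z - pt N u) - AB N b (ξ : ℝ) n u z)
        ≤ ∑ u ∈ b0 n ξ, ∑ z ∈ S, F (pt N u) z := by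
          refine sum_le_sum fun u _ => ?_
          rw [hS, sum_image fun p hp q hq h => pt_inj hKN hp hq h]
          exact sum_le_sum_of_subset_of_nonneg (filter_subset _ _) fun z _ _ => hF0 _ _
      _ = ∑ u ∈ (b0 n ξ).image (pt N), ∑ z ∈ S, F u z := by
          have hinj : Set.InjOn (pt N) (b0 n ξ : Set (ℕ × ℕ)) := fun p hp q hq h =>
            pt_inj hKN (mem_filter.1 (mem_coe.1 hp)).1 (mem_filter.1 (mem_coe.1 hq)).1 h
          rw [sum_image hinj]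
      _ ≤ _ := by
          refine sum_le_sum_of_subset_of_nonneg ?_ fun u _ _ => sum_nonneg fun z _ => hF0 _ _
          intro u hu
          obtain ⟨p, hp, rfl⟩ := mem_image.1 hu
          rw [mem_ball]
          unfold sd
          have hp' := (mem_filter.1 hp).2
          rw [hx0, H705.sn_pt_sub (r := ξ) (by omega) hp']
          exact hp'
  refine h2.trans (h1.trans ?_)
  have h3 : ((S.card : ℕ) : ℝ) ≤ (n : ℝ) ^ 2 := by
    have h4 : S.card ≤ n ^ 2 := by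
      refine card_image_le.trans ?_
      unfold bx
      rw [card_product, Nat.card_Ico, pow_two]
      exact Nat.mul_le_mul (by omega) (by omega)
    exact_mod_cast h4
  have h5 : √(C * (ξ : ℝ) ^ 4 * Real.exp (-(c * m / ξ)) * (ξ : ℝ) ^ 2 * (S.card : ℝ)) ≤
      √C * (ξ : ℝ) ^ 3 * E * n := by
    rw [Real.sqrt_le_iff]
    refine ⟨by positivity, ?_⟩
    have h10 : (√C * (ξ : ℝ) ^ 3 * E * n) ^ 2 =
        C * (ξ : ℝ) ^ 4 * E ^ 2 * (ξ : ℝ) ^ 2 * (n : ℝ) ^ 2 := by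
      rw [mul_pow, mul_pow, mul_pow, Real.sq_sqrt hC]
      ring
    rw [h10, hE2]
    gcongr
  refine h5.trans ?_
  have h6 : E ≤ Real.exp c * Real.exp (-(c * K / 4)) := by
    rw [hE, ← Real.exp_add]
    refine Real.exp_le_exp.2 ?_
    have h7 : c * K / 4 - c ≤ c * m / (2 * ξ) := by
      rw [le_div_iff₀ (by positivity)]
      have h8 := mul_le_mul_of_nonneg_left hm2 hc
      rw [hnr] at h8
      nlinarith
    linarith
  have h7 : (ξ : ℝ) ^ 2 ≤ ((b0 n ξ).card : ℝ) := by exact_mod_cast card_b0 h8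
  have hsC := Real.sqrt_nonneg C
  calc √C * (ξ : ℝ) ^ 3 * E * n ≤ √C * (ξ : ℝ) ^ 3 *
        (Real.exp c * Real.exp (-(c * K / 4))) * n := by gcongr
    _ = (ξ : ℝ) ^ 2 * ((ξ : ℝ) ^ 2 * (√C * K * Real.exp c * Real.exp (-(c * K / 4)))) := by
        rw [hnr]; ring
    _ ≤ ((b0 n ξ).card : ℝ) * ((ξ : ℝ) ^ 2 *
        (√C * K * Real.exp c * Real.exp (-(c * K / 4)))) := by gcongr
    _ = _ := by ring

end Vale.Agent.P159.TM.H265
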