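import Vale.Agent.P159.TM.H265.Entry
import Vale.Agent.P159.TM.H682.Bind
import Vale.Agent.P159.TM.H41.Ker
import Vale.Agent.P159.TM.Spec.Tor

/-!
P159, row A5I, model side: volume transfer on one torus. Pinned covariances `Cv`, the quadratic
form `Cv ∅ - Cv P`, its Cauchy-Schwarz inequality and its value on a ball, bounded by the cluster
functional `WF` (682's E3).
-/

open Finset
open scoped ENNReal

set_option linter.unusedSectionVars false

namespace Vale.Agent.P159.TM.H265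

open Vale.Agent.P159.TM.H708 Vale.Agent.P159.TM.H60 Vale.Agent.P159.T1.H934

section form
variable {V E : Type} [Fintype V] [DecidableEq V] [Fintype E]
variable {D : (V → ℤ) →+ (E → ℤ)} {J : E → ℝ} {m : V → ℝ}

/-- the quadratic form of the pinned covariances -/
noncomputable def Fo (D : (V → ℤ) →+ (E → ℤ)) (J : E → ℝ) (m : V → ℝ) (X : Set V)
    (g g' : V → ℝ) : ℝ := ∑ u, ∑ z, g u * g' z * Cv D J m X u z

theorem fo_eq (hJ : ∀ e, 0 ≤ J e) (hm : ∀ x, 0 < m x) (X : Set V) (g : V → ℝ) :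
    SS D J m X (fun h => (lf g h) ^ 2) / SS D J m X (fun _ => 1) = Fo D J m X g g := by
  have h1 : SS D J m X (fun h => (lf g h) ^ 2) =
      ∑ u, ∑ z, g u * g z * SS D J m X (fun h => (h u : ℝ) * (h z : ℝ)) := by
    unfold SS
    have e1 : ∀ h : V → ℤ, bw D J m X h * (lf g h) ^ 2 =
        ∑ u, ∑ z, g u * g z * (bw D J m X h * ((h u : ℝ) * (h z : ℝ))) := by
      intro h
      unfold lf
      rw [pow_two, Finset.sum_mul_sum, Finset.mul_sum]
      refine Finset.sum_congr rfl fun u _ => ?_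
      rw [Finset.mul_sum]
      refine Finset.sum_congr rfl fun z _ => ?_
      ring
    rw [tsum_congr e1]
    have hs : ∀ u z : V, Summable fun h : V → ℤ =>
        g u * g z * (bw D J m X h * ((h u : ℝ) * (h z : ℝ))) := fun u z =>
      ((bw_summable (D := D) (X := X) hJ hm (gr_at2 u z)).of_abs).mul_left _
    rw [Summable.tsum_finsetSum fun u _ => summable_sum fun z _ => hs u z]
    refine Finset.sum_congr rfl fun u _ => ?_
    rw [Summable.tsum_finsetSum fun z _ => hs u z]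
    refine Finset.sum_congr rfl fun z _ => ?_
    rw [tsum_mul_left]
  rw [h1, Finset.sum_div]
  unfold Fo Cv
  refine Finset.sum_congr rfl fun u _ => ?_
  rw [Finset.sum_div]
  refine Finset.sum_congr rfl fun z _ => ?_
  rw [mul_div_assoc]

theorem fo_nonneg (hJ : ∀ e, 0 ≤ J e) (hm : ∀ x, 0 < m x) (X : Set V) (g : V → ℝ) :
    0 ≤ Fo D J m X g g := by
  rw [← fo_eq hJ hm]
  exact div_nonneg (tsum_nonneg fun h => mul_nonneg (bw_nonneg hJ h) (sq_nonneg _))
    (SS_one_pos D hJ hm X).le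

theorem fo_mono (hJ : ∀ e, 0 ≤ J e) (hm : ∀ x, 0 < m x) (P : Set V) (g : V → ℝ) :
    Fo D J m P g g ≤ Fo D J m ∅ g g := by
  rw [← fo_eq hJ hm, ← fo_eq hJ hm]
  have h2 := mono_pd D hJ hm ∅ (inc_sq g) (PD.iX (V := V) P)
  have hb : ∀ h, bw D J m ∅ h * iX P h = bw D J m P h := by
    intro h
    have := H682.bw_union D J m ∅ P h
    rw [Set.empty_union] at this
    exact this.symm
  have e1 : SS D J m ∅ (fun h => (lf g h) ^ 2 * iX P h) =
      SS D J m P (fun h => (lf g h) ^ 2) := by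
    unfold SS
    refine tsum_congr fun h => ?_
    rw [← hb]
    ring
  have e2 : SS D J m ∅ (iX P) = SS D J m P fun _ => 1 := by
    unfold SS
    refine tsum_congr fun h => ?_
    rw [← hb, mul_one]
  rw [e1, e2] at h2
  rw [div_le_div_iff₀ (SS_one_pos D hJ hm P) (SS_one_pos D hJ hm ∅)]
  exact h2

/-- the difference form -/
noncomputable def Bf (D : (V → ℤ) →+ (E → ℤ)) (J : E → ℝ) (m : V → ℝ) (P : Set V)
    (g g' : V → ℝ) : ℝ := ∑ u, ∑ z, g u * g' z * (Cv D J m ∅ u z - Cv D J m P u z)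

theorem bf_eq (P : Set V) (g g' : V → ℝ) :
    Bf D J m P g g' = Fo D J m ∅ g g' - Fo D J m P g g' := by
  unfold Bf Fo
  rw [← Finset.sum_sub_distrib]
  refine Finset.sum_congr rfl fun u _ => ?_
  rw [← Finset.sum_sub_distrib]
  exact Finset.sum_congr rfl fun z _ => by ring

theorem bf_comm (P : Set V) (g g' : V → ℝ) : Bf D J m P g g' = Bf D J m P g' g := by
  unfold Bf
  rw [Finset.sum_comm]
  refine Finset.sum_congr rfl fun u _ => Finset.sum_congr rfl fun z _ => ?_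
  rw [cv_comm (D := D) (J := J) (m := m) (X := ∅) u z,
    cv_comm (D := D) (J := J) (m := m) (X := P) u z]
  ring

theorem bf_nonneg (hJ : ∀ e, 0 ≤ J e) (hm : ∀ x, 0 < m x) (P : Set V) (g : V → ℝ) :
    0 ≤ Bf D J m P g g := by
  rw [bf_eq]
  exact sub_nonneg.2 (fo_mono hJ hm P g)

theorem bf_le (hJ : ∀ e, 0 ≤ J e) (hm : ∀ x, 0 < m x) (P : Set V) (g : V → ℝ) :
    Bf D J m P g g ≤ Fo D J m ∅ g g := by
  rw [bf_eq]
  have := fo_nonneg (D := D) hJ hm P g
  linarith

/-- Cauchy-Schwarz -/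
theorem bf_cs (hJ : ∀ e, 0 ≤ J e) (hm : ∀ x, 0 < m x) (P : Set V) (g g' : V → ℝ) :
    (Bf D J m P g g') ^ 2 ≤ Bf D J m P g g * Bf D J m P g' g' := by
  have key : ∀ t : ℝ, 0 ≤ Bf D J m P g' g' * (t * t) + 2 * Bf D J m P g g' * t +
      Bf D J m P g g := by
    intro t
    have h := bf_nonneg (D := D) hJ hm P (fun v => g v + t * g' v)
    have e : Bf D J m P (fun v => g v + t * g' v) (fun v => g v + t * g' v) =
        Bf D J m P g g + t * Bf D J m P g g' + t * Bf D J m P g' g +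
          t * t * Bf D J m P g' g' := by
      unfold Bf
      simp only [Finset.mul_sum]
      rw [← Finset.sum_add_distrib, ← Finset.sum_add_distrib, ← Finset.sum_add_distrib]
      refine Finset.sum_congr rfl fun u _ => ?_
      rw [← Finset.sum_add_distrib, ← Finset.sum_add_distrib, ← Finset.sum_add_distrib]
      exact Finset.sum_congr rfl fun z _ => by ring
    rw [e, bf_comm P g' g] at h
    linarith
  have h := discrim_le_zero key
  unfold discrim at h
  nlinarith [h]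

end form

section torus
open Vale.Agent.P159.TM.Spec Vale.Agent.P159.TM.H459 Vale.Agent.P159.TM.SpecC
  Vale.Agent.P159.H353

variable {N : ℕ} [NeZero N]

/-- the gradient of the torus -/
noncomputable abbrev DT (N : ℕ) [NeZero N] : (V N → ℤ) →+ (E N → ℤ) := grd (tS (N := N)) tT

/-- pinned covariances on the torus -/
noncomputable def CT (b ξ : ℝ) (X : Set (V N)) (u z : V N) : ℝ :=
  Cv (DT N) (fun _ => b) (ms ξ) X u z

theorem one_congr {V E : Type*} {s t : E → V} {w : E → ℤ → ℝ} (hw0 : ∀ e n, 0 ≤ w e n)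
    (hev : ∀ e n, w e (-n) = w e n) (hw : ∀ e, T1.H897.LogC (w e)) {a a' : V → ℤ → ℝ}
    (h : a = a') (ha : ∀ v n, 0 ≤ a v n) (hae : ∀ v n, a v (-n) = a v n)
    (ha' : ∀ v n, 0 ≤ a' v n) (hae' : ∀ v n, a' v (-n) = a' v n) :
    one s t w hw0 hev hw a ha hae = one s t w hw0 hev hw a' ha' hae' := by
  subst h
  rfl

theorem aT_eq_gs (ξ : ℝ) : aT ξ (0 : V N → ℝ) = H682.gs (ms ξ) := by
  funext v n
  unfold aT H682.gs
  congr 1
  simp only [Pi.zero_apply, sub_zero]
  ring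

theorem s1_eq (b : ℝ) (ξ : ℕ) (hb : 0 ≤ b) :
    σ1 N b ξ hb = H682.syM (tS (N := N)) tT (fun _ => b) (ms (ξ : ℝ)) fun _ => hb := by
  unfold σ1 H682.syM H682.sy
  exact one_congr _ _ _ (aT_eq_gs (N := N) (ξ : ℝ)) _ _ _ _

theorem gr_zero {V : Type} [Fintype V] [DecidableEq V] (m : V → ℝ) (h : V → ℤ) :
    H870.gr m h 0 = ga m h * iX ∅ h := by
  have h1 : iX (∅ : Set V) h = 1 := by
    unfold iX
    rw [if_pos]
    intro x hx
    exact absurd hx (Set.notMem_empty x)
  rw [h1, mul_one]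
  unfold H870.gr ga
  congr 2
  refine Finset.sum_congr rfl fun x _ => ?_
  simp only [Pi.zero_apply, sub_zero]

theorem ct_empty (b ξ : ℝ) (x z : V N) : CT b ξ ∅ x z = H41.G b N ξ (z - x) := by
  rw [← H41.Cf_G b ξ x z]
  unfold H104.Cf
  rw [H41.Ex_co H41.even_wT, zero_mul, sub_zero]
  unfold CT Cv SS H870.Ex H870.Zr bw
  simp only [← gr_zero, H41.wT_eq_W, mul_one]
  rfl

theorem ct_nonneg {b ξ : ℝ} (hb : 0 ≤ b) (hξ : 0 < ξ) (X : Set (V N)) (u z : V N) :
    0 ≤ CT b ξ X u z :=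
  cv_nonneg (lat_grd _ _) (fun _ => hb) (H41.ms_pos hξ) X u z

theorem ct_mono {b ξ : ℝ} (hb : 0 ≤ b) (hξ : 0 < ξ) {X Y : Set (V N)} (h : X ⊆ Y) (u z : V N) :
    CT b ξ Y u z ≤ CT b ξ X u z :=
  cv_mono (lat_grd _ _) (fun _ => hb) (H41.ms_pos hξ) h u z

theorem ct_le {b ξ : ℝ} (hb : 0 ≤ b) (hξ : 0 < ξ) (X : Set (V N)) (u z : V N) :
    CT b ξ X u z ≤ H41.G b N ξ (z - u) := by
  rw [← ct_empty]
  exact ct_mono hb hξ (Set.empty_subset X) u z

/-- the indicator of a finite set -/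
noncomputable def one' (S : Finset (V N)) (v : V N) : ℝ := if v ∈ S then 1 else 0

theorem fo_one_le {b ξ : ℝ} (hb : 0 ≤ b) (hξ : 0 < ξ) (S : Finset (V N)) :
    Fo (DT N) (fun _ => b) (ms ξ) ∅ (one' S) (one' S) ≤ ξ ^ 2 * S.card := by
  have h := H41.frm_le (N := N) hb hξ (one' S)
  have e1 : Fo (DT N) (fun _ => b) (ms ξ) ∅ (one' S) (one' S) =
      H764.frm (H41.G b N ξ) (one' S) := by
    unfold Fo H764.frm
    refine Finset.sum_congr rfl fun x _ => Finset.sum_congr rfl fun z _ => ?_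
    have := ct_empty (N := N) b ξ x z
    unfold CT at this
    rw [this]
    ring
  have e2 : ∑ x : V N, one' S x ^ 2 = S.card := by
    unfold one'
    simp
  rw [e1]
  rw [e2] at h
  exact h

theorem bf_one (b ξ : ℝ) (P : Set (V N)) (B S : Finset (V N)) :
    Bf (DT N) (fun _ => b) (ms ξ) P (one' B) (one' S) =
      ∑ u ∈ B, ∑ z ∈ S, (H41.G b N ξ (z - u) - CT b ξ P u z) := by
  unfold Bf
  have h1 : ∀ u z : V N, Cv (DT N) (fun _ => b) (ms ξ) ∅ u z = H41.G b N ξ (z - u) :=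
    fun u z => ct_empty b ξ u z
  simp only [h1]
  have h2 : ∀ u : V N, ∑ z, one' B u * one' S z * (H41.G b N ξ (z - u) -
      Cv (DT N) (fun _ => b) (ms ξ) P u z) =
      if u ∈ B then ∑ z ∈ S, (H41.G b N ξ (z - u) - CT b ξ P u z) else 0 := by
    intro u
    unfold one'
    by_cases hu : u ∈ B
    · simp only [if_pos hu, one_mul, ite_mul, zero_mul]
      rw [Finset.sum_ite_mem, Finset.univ_inter]
      rfl
    · simp only [if_neg hu, zero_mul, Finset.sum_const_zero]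
  rw [Finset.sum_congr rfl fun u _ => h2 u, Finset.sum_ite_mem, Finset.univ_inter]

theorem ofReal_tsum_le {ι : Type*} {f : ι → ℝ} (hf : ∀ i, 0 ≤ f i) :
    ENNReal.ofReal (∑' i, f i) ≤ ∑' i, ENNReal.ofReal (f i) := by
  by_cases hs : Summable f
  · rw [ENNReal.ofReal_tsum_of_nonneg hf hs]
  · rw [tsum_eq_zero_of_not_summable hs, ENNReal.ofReal_zero]
    exact zero_le

open Classical in
theorem xi_eq {S : Type*} (σ : Sys (V N) (E N) S) (B P : Finset (V N)) (om : Finset (E N))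
    (x : V N → S) :
    H682.Xi σ (one' B) P om x = ((∑ u ∈ B, ∑ v ∈ B, (if u ∈ H682.hull σ.s σ.t om P then
      H576.mf σ x om u u * H576.mf σ x om u v else 0) : ℕ) : ℝ) := by
  push_cast
  unfold H682.Xi
  have habs : ∀ v : V N, |(σ.d (x v) : ℝ)| = ((σ.d (x v)).natAbs : ℝ) := by
    intro v
    rw [Nat.cast_natAbs, Int.cast_abs]
  have hin : ∀ u : V N, ∑ v ∈ clus σ.s σ.t om u, one' B v * |(σ.d (x v) : ℝ)| =
      ∑ v ∈ B, (H576.mf σ x om u v : ℝ) := by
    intro u
    have e1 : ∀ v : V N, one' B v * |(σ.d (x v) : ℝ)| =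
        if v ∈ B then ((σ.d (x v)).natAbs : ℝ) else 0 := by
      intro v
      unfold one'
      by_cases h : v ∈ B
      · rw [if_pos h, if_pos h, one_mul, habs]
      · rw [if_neg h, if_neg h, zero_mul]
    have e2 : ∀ v : V N, (H576.mf σ x om u v : ℝ) =
        if v ∈ clus σ.s σ.t om u then ((σ.d (x v)).natAbs : ℝ) else 0 := by
      intro v
      unfold H576.mf
      split_ifs <;> simp
    rw [Finset.sum_congr rfl fun v _ => e1 v, Finset.sum_congr rfl fun v _ => e2 v,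
      Finset.sum_ite_mem, Finset.sum_ite_mem, Finset.inter_comm]
  have e3 : ∀ u : V N, one' B u * |(σ.d (x u) : ℝ)| *
      ∑ v ∈ clus σ.s σ.t om u, one' B v * |(σ.d (x v) : ℝ)| =
      if u ∈ B then ∑ v ∈ B, (H576.mf σ x om u u : ℝ) * (H576.mf σ x om u v : ℝ) else 0 := by
    intro u
    rw [hin u, ← Finset.mul_sum]
    unfold one'
    have e4 : (H576.mf σ x om u u : ℝ) = |(σ.d (x u) : ℝ)| := by
      rw [habs, H576.mf_self]
    rw [e4]
    by_cases h : u ∈ B
    · rw [if_pos h, if_pos h, one_mul]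
    · rw [if_neg h, if_neg h, zero_mul, zero_mul]
  rw [Finset.sum_congr rfl fun u _ => e3 u, Finset.sum_ite_mem, Finset.inter_comm,
    ← Finset.sum_ite_mem]
  refine Finset.sum_congr rfl fun u _ => ?_
  by_cases h : u ∈ H682.hull σ.s σ.t om P
  · simp only [if_pos h]
  · simp only [if_neg h, Finset.sum_const_zero]

theorem xi_le_wf {S : Type*} (σ : Sys (V N) (E N) S) {B P Λ : Finset (V N)} (hB : B ⊆ Λ)
    (hP : Disjoint P Λ) {om : Finset (E N)} {x : V N → S} (hw : σ.wt om x ≠ 0) :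
    ENNReal.ofReal (H682.Xi σ (one' B) P om x) ≤ WF σ B Λ x om := by
  classical
  rw [xi_eq, ENNReal.ofReal_natCast]
  unfold WF
  push_cast
  refine Finset.sum_le_sum fun u hu => Finset.sum_le_sum fun v _ => ?_
  by_cases h : u ∈ H682.hull σ.s σ.t om P
  · rw [if_pos h]
    obtain ⟨p, hp, hc⟩ := H682.mem_hull.1 h
    have hpu : p ≠ u := by
      rintro rfl
      exact Finset.disjoint_left.1 hP hp (hB hu)
    have h1 := σ.sign_conn hw hc
    rcases h1 with h1 | h1
    · exact absurd h1 hpu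
    · have h2 : H576.mf σ x om u p ≠ 0 := by
        unfold H576.mf
        rw [if_pos (mem_clus.2 hc.symm)]
        intro h3
        rw [Int.natAbs_eq_zero] at h3
        rw [h3, zero_mul] at h1
        exact lt_irrefl _ h1
      rw [H576.ind_true ⟨p, fun h4 => Finset.disjoint_left.1 hP hp h4, h2⟩, mul_one]
  · rw [if_neg h]
    exact zero_le

theorem tot_summable {b ξ : ℝ} (hb : 0 ≤ b) (hξ : 0 < ξ) :
    Summable fun x => (H682.syM (tS (N := N)) tT (fun _ => b) (ms ξ) fun _ => hb).tot x := by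
  have h5 := (bw_summable (D := DT N) (X := ∅) (J := fun _ => b) (fun _ => hb)
    (H41.ms_pos (N := N) hξ) (Gr.one (V := V N))).of_abs
  refine h5.congr fun h => ?_
  unfold H682.syM
  rw [H682.tot_sy, H682.Wm_gs, mul_one]

theorem tot_tsum {b ξ : ℝ} (hb : 0 ≤ b) :
    ∑' x, (H682.syM (tS (N := N)) tT (fun _ => b) (ms ξ) fun _ => hb).tot x =
      SS (DT N) (fun _ => b) (ms ξ) ∅ fun _ => 1 := by
  unfold SS
  refine tsum_congr fun h => ?_
  unfold H682.syM
  rw [H682.tot_sy, H682.Wm_gs, mul_one]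

/-- **the form on a ball is bounded by the cluster functional** -/
theorem bf_ball {b : ℝ} (hb : 0 ≤ b) {ξ : ℕ} (hξ : 0 < ξ) {B P Λ : Finset (V N)} (hB : B ⊆ Λ)
    (hP : Disjoint P Λ) {w : ℝ} (hw : 0 ≤ w) (hE : Ele (σ1 N b ξ hb) (WF (σ1 N b ξ hb) B Λ) w) :
    Bf (DT N) (fun _ => b) (ms (ξ : ℝ)) (P : Set (V N)) (one' B) (one' B) ≤ w := by
  have hξ' : (0 : ℝ) < ξ := by exact_mod_cast hξ
  have hm := H41.ms_pos (N := N) hξ'
  have h1 := H682.e3_var (tS (N := N)) tT (J := fun _ => b) (fun _ => hb) hm P (one' B)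
  rw [fo_eq (D := DT N) (fun _ => hb) hm, fo_eq (D := DT N) (fun _ => hb) hm, ← bf_eq] at h1
  refine h1.trans ?_
  have hp := SS_one_pos (DT N) (J := fun _ => b) (fun _ => hb) hm ∅
  rw [div_le_iff₀ hp]
  rw [s1_eq (N := N) b ξ hb] at hE
  set σ := H682.syM (tS (N := N)) tT (fun _ => b) (ms (ξ : ℝ)) fun _ => hb with hσ
  unfold Ele at hE
  rw [H576.Ex_one_real σ (tot_summable hb hξ'), tot_tsum hb, ← ENNReal.ofReal_mul hw] at hE
  have hX : ∀ om x, 0 ≤ σ.wt om x * H682.Xi σ (one' B) P om x := fun om x =>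
    mul_nonneg (σ.wt_nonneg om x) (H682.Xi_nonneg σ (fun v => by unfold one'; split_ifs <;>
      norm_num) P om x)
  have h2 : ENNReal.ofReal (∑ om : Finset (E N), ∑' u, σ.wt om u *
      H682.Xi σ (one' B) P om u) ≤ H576.Ex σ (WF σ B Λ) := by
    rw [ENNReal.ofReal_sum_of_nonneg fun om _ => tsum_nonneg fun x => hX om x]
    unfold H576.Ex
    calc ∑ om : Finset (E N), ENNReal.ofReal (∑' u, σ.wt om u * H682.Xi σ (one' B) P om u)
        ≤ ∑ om : Finset (E N), ∑' u, ENNReal.ofReal (σ.wt om u *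
            H682.Xi σ (one' B) P om u) :=
          Finset.sum_le_sum fun om _ => ofReal_tsum_le fun x => hX om x
      _ = ∑' u, ∑ om : Finset (E N), ENNReal.ofReal (σ.wt om u *
            H682.Xi σ (one' B) P om u) := by
          rw [Summable.tsum_finsetSum fun om _ => ENNReal.summable]
      _ ≤ _ := by
          refine ENNReal.tsum_le_tsum fun x => Finset.sum_le_sum fun om _ => ?_
          rw [ENNReal.ofReal_mul (σ.wt_nonneg om x)]
          by_cases h0 : σ.wt om x = 0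
          · rw [h0, ENNReal.ofReal_zero, zero_mul, zero_mul]
          · exact mul_le_mul' le_rfl (xi_le_wf σ hB hP h0)
  have h3 := h2.trans hE
  exact (ENNReal.ofReal_le_ofReal_iff (mul_nonneg hw hp.le)).1 h3

/-- **VT1: volume transfer** -/
theorem vt1 {b : ℝ} (hb : 0 ≤ b) {ξ : ℕ} (hξ : 0 < ξ) {B P Λ : Finset (V N)} (hB : B ⊆ Λ)
    (hP : Disjoint P Λ) {w : ℝ} (hw : 0 ≤ w) (hE : Ele (σ1 N b ξ hb) (WF (σ1 N b ξ hb) B Λ) w)
    (S : Finset (V N)) :
    ∑ u ∈ B, ∑ z ∈ S, (H41.G b N ξ (z - u) - CT b ξ (P : Set (V N)) u z) ≤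
      Real.sqrt (w * (ξ : ℝ) ^ 2 * S.card) := by
  have hξ' : (0 : ℝ) < ξ := by exact_mod_cast hξ
  have hm := H41.ms_pos (N := N) hξ'
  rw [← bf_one]
  have h1 := bf_cs (D := DT N) (J := fun _ => b) (fun _ => hb) hm (P : Set (V N)) (one' B)
    (one' S)
  have h2 := bf_ball hb hξ hB hP hw hE
  have h3 := (bf_le (D := DT N) (J := fun _ => b) (fun _ => hb) hm (P : Set (V N))
    (one' S)).trans (fo_one_le hb hξ' S)
  have h4 := bf_nonneg (D := DT N) (J := fun _ => b) (fun _ => hb) hm (P : Set (V N)) (one' S)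
  refine Real.le_sqrt_of_sq_le (h1.trans ?_)
  rw [mul_assoc]
  exact mul_le_mul h2 h3 h4 hw

end torus

end Vale.Agent.P159.TM.H265
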